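import Vale.Agent.P088.R2.H380.INF.EvS
import Vale.Agent.P088.R2.H673.INF.RowRho

/-!
# P088, stage 3, zone INF: **the leaf iS**

`zone_iS_all`: the zone inequality for every cut-off `χ` which vanishes off the separable region
`DeepOk`; `zone_iS`: for the leaf `iS`.
-/

open MeasureTheory Set Filter
open scoped ContDiff Topology Matrix

noncomputable section

namespace Vale.Agent.P088.R2.H380.INF

open Vale.Agent.P088.R2.H961.GW Vale.Agent.P088.R2.H960.W Vale.Agent.P088.R2.H644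
open Vale.Agent.P088.R2.H551.E Vale.Agent.P088.LR Vale.Agent.P088.HY Vale.Agent.P088.R2.H475
open Vale.Agent.P088.R2.H168.INF Vale.Agent.P088.R2.H269.INF Vale.Agent.P088.R2.H31.EP
open Vale.Agent.P088.R2.H404.INF (InfC evInf lvG l₀_eq gl_le DeepOk closed_deep deep_supp W_ret)

variable {n : ℕ} {q : Cst} {d : Pk n} {C₁ : ℝ} {CL : ℝ → ℝ}

theorem lmS_sm (h : PkOk q d) : ContDiff ℝ ∞ (lmS q d) :=
  contDiff_const.mul ((sm_T1 h).comp (h.lev.sm.comp contDiff_fst))

theorem muS_sm (h : PkOk q d) : ContDiff ℝ ∞ (muS q d) :=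
  contDiff_const.mul ((sm_T1 h).comp (h.lev.sm.comp contDiff_snd))

/-- **The zone inequality with any cut-off supported in the separable region.** -/
theorem zone_at (hn : 1 ≤ n) (c : Cns n C₁ CL) (co : SCo n C₁ CL q) (h : PkOk q d)
    (hr : RhoP q d) {χ : VV n → ℝ} (sχ : ContDiff ℝ ∞ χ)
    (h0 : ∀ z, ¬ DeepOk q.σ q.R (H475.gg n q.σ) d.l z → χ z = 0) :
    d.Zone q χ ((MiS q d).sm fun z => χ z ^ 2) (CiS χ q d) := by
  have hq := co.inf
  have hR := hq.R0
  have N := co.nm hn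
  have hε : n * q.ε ≤ 1 / 2 := by linarith [co.ε1, mul_comm (n : ℝ) q.ε]
  have e1 : q.ε * n ≤ 1 / 2 := by linarith [co.ε1]
  have m1 := mt₁ le_rfl hR h.rg
  have m2 := mt₂ le_rfl hR h.rg
  have ok : d.sx.Ok univ 1 := ok_x m1 m2
  have ot : d.sy.Ok univ 1 := ok_y m1 m2
  have sW : ContDiffOn ℝ ∞ (d.W q) univ := (W_smS h hε).contDiffOn
  have sc : ContDiffOn ℝ ∞ χ univ := sχ.contDiffOn
  have sl : ContDiffOn ℝ ∞ (lmS q d) univ := (lmS_sm h).contDiffOn
  have sm : ContDiffOn ℝ ∞ (muS q d) univ := (muS_sm h).contDiffOn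
  have s0 : ContDiffOn ℝ ∞ (0 : VV n → ℝ) univ := contDiffOn_const
  have t1 : ∀ t, 0 ≤ T1 q d t := fun t => by
    have := h.Θd0 hR t
    have := co.M1
    unfold T1
    linarith
  have u0 := N.u0
  have l0 : ∀ z ∈ (univ : Set (VV n)), 0 ≤ lmS q d z := fun z _ =>
    mul_nonneg (by positivity) (t1 (d.l z.1))
  have m0 : ∀ z ∈ (univ : Set (VV n)), 0 ≤ muS q d z := fun z _ =>
    mul_nonneg (by positivity) (t1 (d.l z.2))
  have Z := zone_S (S := {z | DeepOk q.σ q.R (H475.gg n q.σ) d.l z}) (v₁ := 0) (v₂ := 0)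
    (e := fun _ => eS q) (r := fun _ => eS q) ok ot s0 s0 sW sc
    (closed_deep (lvG hq h)) h0 (fun z _ A => m1.lo (pj_x _) co.ε0 e1 z A)
    (fun z _ A => m2.lo (pj_y _) co.ε0 e1 z A) sl sm l0 m0 continuousOn_const continuousOn_const
    (fun z _ hz => pnS hn c co h hr hz)
  -- continuity
  have sF1 := (ok.sF sW).continuousOn
  have sF2 := (ot.sF sW).continuousOn
  have sL1 := (ok.sL sW).continuousOn
  have sL2 := (ot.sL sW).continuousOn
  have sG1 := (ok.sG sl sW).continuousOn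
  have sG2 := (ot.sG sm sW).continuousOn
  have c2 : ContinuousOn (fun z => χ z ^ 2) univ := sc.continuousOn.pow 2
  have cl := sl.continuousOn
  have cm := sm.continuousOn
  have c0 : ContinuousOn (fun _ : VV n => (0 : ℝ)) univ := continuousOn_const
  have nx : ContinuousOn (nX q d) univ := by
    have : ContDiff ℝ ∞ (nX q d) := (sm_T1 h).comp (h.lev.sm.comp contDiff_fst)
    exact this.continuous.continuousOn
  have ny : ContinuousOn (nY q d) univ := by
    have : ContDiff ℝ ∞ (nY q d) := (sm_T1 h).comp (h.lev.sm.comp contDiff_snd)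
    exact this.continuous.continuousOn
  have cg : (mS d.sx d.sy (d.W q) χ (lmS q d) (muS q d) (fun _ => eS q) fun _ => eS q).Ct univ :=
    ⟨c2, c2.mul (cl.div_const _), c2.mul (cm.div_const _), c0,
      c2.mul ((((cl.mul sF1).div_const _).add (continuousOn_const.mul
        ((cl.mul sL1).add sG1))).sub continuousOn_const),
      c2.mul ((((cm.mul sF2).div_const _).add (continuousOn_const.mul
        ((cm.mul sL2).add sG2))).sub continuousOn_const), c0, c0⟩
  have w1 : ContinuousOn (cw d.sx (d.W q) χ (lmS q d)) univ :=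
    (((contDiffOn_const.mul sl).mul (ok.sG sc sc)).continuousOn.add
      (contDiffOn_const.mul (sHH ok sW sc)).continuousOn).add
      (continuousOn_const.mul (sc.mul (ok.sG sc (ok.sL sW))).continuousOn.abs)
  have w2 : ContinuousOn (cw d.sy (d.W q) χ (muS q d)) univ :=
    (((contDiffOn_const.mul sm).mul (ot.sG sc sc)).continuousOn.add
      (contDiffOn_const.mul (sHH ot sW sc)).continuousOn).add
      (continuousOn_const.mul (sc.mul (ot.sG sc (ot.sL sW))).continuousOn.abs)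
  have cc : (CiS χ q d).Ct univ := ⟨c0, c0, c0, c0, w1, w2, c0, c0⟩
  have cg' : ((MiS q d).sm fun z => χ z ^ 2).Ct univ :=
    ⟨c2.mul continuousOn_const, c2.mul (cl.div_const _), c2.mul (cm.div_const _), c2.mul c0,
      c2.mul (((cl.mul sF1).div_const _).add (continuousOn_const.mul
        ((continuousOn_const.mul nx).pow 2))),
      c2.mul (((cm.mul sF2).div_const _).add (continuousOn_const.mul
        ((continuousOn_const.mul ny).pow 2))), c2.mul c0, c2.mul c0⟩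
  refine Zone.of ok ot s0 s0 sW cg cc cg' cc Z fun z _ => ?_
  by_cases hz : DeepOk q.σ q.R (H475.gg n q.σ) d.l z
  · have r1 := (slot_S hn co h (syx hn c co h hr hz)).2.2
    have r2 := (slot_S hn co h (syy hn c co h hr hz)).2.2
    rw [W_x] at r1
    rw [W_y] at r2
    have k := sq_nonneg (χ z)
    have r1' := mul_le_mul_of_nonneg_left r1 k
    have r2' := mul_le_mul_of_nonneg_left r2 k
    refine ⟨?_, le_refl _, le_refl _, ?_, ?_, ?_, ?_, ?_⟩
    · show χ z ^ 2 * 1 + 0 ≤ χ z ^ 2 + 0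
      linarith
    · show χ z ^ 2 * 0 + 0 ≤ (0 : ℝ) + 0
      linarith
    · show χ z ^ 2 * (lmS q d z * d.sx.F (d.W q) z / 2 +
          1 / 10 ^ 4 * ((q.σ / q.R) * T1 q d (d.l z.1)) ^ 2) + cw d.sx (d.W q) χ (lmS q d) z ≤
        χ z ^ 2 * (lmS q d z * d.sx.F (d.W q) z / 2 + 2 / 3 * (lf q d Prod.fst z *
          d.sx.Λ (d.W q) z + d.sx.Γ (lf q d Prod.fst) (d.W q) z) - 3 * eS q) +
          cw d.sx (d.W q) χ (lmS q d) z
      linarith
    · show χ z ^ 2 * (muS q d z * d.sy.F (d.W q) z / 2 +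
          1 / 10 ^ 4 * ((q.σ / q.R) * T1 q d (d.l z.2)) ^ 2) + cw d.sy (d.W q) χ (muS q d) z ≤
        χ z ^ 2 * (muS q d z * d.sy.F (d.W q) z / 2 + 2 / 3 * (lf q d Prod.snd z *
          d.sy.Λ (d.W q) z + d.sy.Γ (lf q d Prod.snd) (d.W q) z) - 3 * eS q) +
          cw d.sy (d.W q) χ (muS q d) z
      linarith
    · show χ z ^ 2 * 0 + 0 ≤ (0 : ℝ) + 0
      linarith
    · show χ z ^ 2 * 0 + 0 ≤ (0 : ℝ) + 0
      linarith
  · have k : χ z ^ 2 = 0 := by rw [h0 z hz]; ring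
    refine ⟨?_, le_refl _, le_refl _, ?_, ?_, ?_, ?_, ?_⟩
    · show χ z ^ 2 * 1 + 0 ≤ χ z ^ 2 + 0
      linarith
    · show χ z ^ 2 * 0 + 0 ≤ (0 : ℝ) + 0
      linarith
    · show χ z ^ 2 * _ + cw d.sx (d.W q) χ (lmS q d) z ≤
        χ z ^ 2 * _ + cw d.sx (d.W q) χ (lmS q d) z
      rw [k, zero_mul, zero_mul]
    · show χ z ^ 2 * _ + cw d.sy (d.W q) χ (muS q d) z ≤
        χ z ^ 2 * _ + cw d.sy (d.W q) χ (muS q d) z
      rw [k, zero_mul, zero_mul]
    · show χ z ^ 2 * 0 + 0 ≤ (0 : ℝ) + 0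
      linarith
    · show χ z ^ 2 * 0 + 0 ≤ (0 : ℝ) + 0
      linarith

/-- **The leaf iS**, from the row RHO, for all cut-offs. -/
theorem zone_iS_of (hn : 1 ≤ n) (hr : RowRho n) : EvC fun q => ∀ d : Pk n, PkOk q d →
    ∀ χ : VV n → ℝ, ContDiff ℝ ∞ χ →
      (∀ z, ¬ DeepOk q.σ q.R (H475.gg n q.σ) d.l z → χ z = 0) →
      d.Zone q χ ((MiS q d).sm fun z => χ z ^ 2) (CiS χ q d) := by
  obtain ⟨C₁, CL, h1, h2, c⟩ := exists_cns hn
  refine ((evSCo n h1 h2).and hr).mono ?_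
  rintro q ⟨co, hr⟩ d h χ sχ h0
  exact zone_at hn c co h (hr d h) sχ h0

/-- For all cut-offs supported in the separable region. -/
theorem zone_iS_all (hn : 1 ≤ n) : EvC fun q => ∀ d : Pk n, PkOk q d →
    ∀ χ : VV n → ℝ, ContDiff ℝ ∞ χ →
      (∀ z, ¬ DeepOk q.σ q.R (H475.gg n q.σ) d.l z → χ z = 0) →
      d.Zone q χ ((MiS q d).sm fun z => χ z ^ 2) (CiS χ q d) :=
  zone_iS_of hn (H673.INF.rowRho n)

/-- **The zone theorem of the leaf iS.** -/
theorem zone_iS (hn : 1 ≤ n) : ZoneThm n (fun q d => d.ch q .iS)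
    (fun q d => (MiS q d).sm fun z => d.ch q .iS z ^ 2) (fun q d => CiS (d.ch q .iS) q d) := by
  refine ((zone_iS_all hn).and ((EvC.litSm n).and evInf)).mono ?_
  rintro q ⟨hz, hs, hi⟩ d h
  refine hz d h _ ((hs d h).ch _) fun z hz' => ?_
  by_contra hne
  exact hz' (deep_supp hi h (subset_tsupport _ (Function.mem_support.2 hne)))

end Vale.Agent.P088.R2.H380.INF
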