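import Vale.Agent.P088.R2.H380.INF.SlS
import Vale.Agent.P088.R2.H509.EP.Lit2

/-!
# P088, stage 3, zone INF, leaf iS: the hypotheses `Pn` of `zone_S`
-/

open MeasureTheory Set Filter
open scoped ContDiff Topology Matrix

noncomputable section

namespace Vale.Agent.P088.R2.H380.INF

open Vale.Agent.P088.R2.H961.GW Vale.Agent.P088.R2.H960.W Vale.Agent.P088.R2.H644
open Vale.Agent.P088.R2.H551.E Vale.Agent.P088.LR Vale.Agent.P088.HY Vale.Agent.P088.R2.H475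
open Vale.Agent.P088.R2.H168.INF Vale.Agent.P088.R2.H269.INF Vale.Agent.P088.R2.H31.EP
open Vale.Agent.P088.R2.H404.INF (InfC evInf lvG l₀_eq gl_le DeepOk closed_deep deep_supp W_ret)

variable {n : ℕ} {q : Cst} {d : Pk n} {C₁ : ℝ} {CL : ℝ → ℝ}

/-- The negligible function. -/
def rhS (q : Cst) (d : Pk n) (z : VV n) : ℝ := d.W q z - TT q d (d.l z.1) - TT q d (d.l z.2)

theorem W_smS (h : PkOk q d) (hε : n * q.ε ≤ 1 / 2) : ContDiff ℝ ∞ (d.W q) :=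
  WT_smooth h.ok h.Θs h.ret.sm h.lev.sm (h.gi_sm hε)

theorem T_x (h : PkOk q d) : ContDiff ℝ ∞ fun z : VV n => TT q d (d.l z.1) :=
  (sm_T h).comp (h.lev.sm.comp contDiff_fst)

theorem T_y (h : PkOk q d) : ContDiff ℝ ∞ fun z : VV n => TT q d (d.l z.2) :=
  (sm_T h).comp (h.lev.sm.comp contDiff_snd)

theorem rhS_sm (h : PkOk q d) (hε : n * q.ε ≤ 1 / 2) : ContDiff ℝ ∞ (rhS q d) :=
  ((W_smS h hε).sub (T_x h)).sub (T_y h)

/-- `ρ` where `P = id`. -/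
theorem rhS_eq (h : PkOk q d) {z : VV n} (h1 : d.l z.1 < d.l₀ q + 3 * q.R)
    (h2 : d.l z.2 < d.l₀ q + 3 * q.R) :
    rhS q d =ᶠ[𝓝 z] fun w => W0 q d w - q.M₀ * (d.l w.1 + d.l w.2) := by
  filter_upwards [W_ret h h1 h2] with w hw
  unfold rhS TT
  rw [hw.2.2]
  unfold W0
  ring

/-- The bound of `ρ`. -/
def RhoP (q : Cst) (d : Pk n) : Prop := ∀ z : VV n,
  d.l z.1 ≤ d.l₀ q + 31 / 10 * q.R → d.l z.2 ≤ d.l₀ q + 31 / 10 * q.R →
  d.l z.1 + d.l z.2 + 4 / 5 * √(q.R ^ 2 + HY.sq (z.1 - z.2)) ≤ -(5 / 1000) * (q.R / q.σ) →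
  ∀ j, 1 ≤ j → j ≤ 4 →
    ‖iteratedFDeriv ℝ j (fun z => W0 q d z - q.M₀ * (d.l z.1 + d.l z.2)) z‖ ≤ q.R⁻¹ ^ 8

theorem rhS_bd (hq : InfC q) (h : PkOk q d) (hr : RhoP q d) {z : VV n}
    (hz : DeepOk q.σ q.R (H475.gg n q.σ) d.l z) {j : ℕ} (h1 : 1 ≤ j) (h4 : j ≤ 4) :
    ‖iteratedFDeriv ℝ j (rhS q d) z‖ ≤ q.R⁻¹ ^ 8 := by
  have hR := hq.R0
  have a1 := (gl_le hq h).1 hz.g1
  have a2 := (gl_le hq h).1 hz.g2
  rw [((rhS_eq h (by linarith) (by linarith)).iteratedFDeriv ℝ j).eq_of_nhds]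
  refine hr z (by linarith) (by linarith) ?_ j h1 h4
  have := hz.f
  have h5 : 0 < q.R / q.σ := div_pos hR hq.σ0
  linarith

/-- The hypotheses of `sb_pt`. -/
theorem bs_of (h : PkOk q d) (hR : 1 ≤ q.R) (he : q.ε ≤ 1) {f : VV n → ℝ}
    (hf : ContDiff ℝ ∞ f) : Bs q.R d.s₁ d.s₂ f := by
  have key : ∀ s : MF n, (∀ i j, ∀ m ≤ 12, ∀ x, ‖iteratedFDeriv ℝ m (fun x => s x i j -
      (1 : Matrix (Fin n) (Fin n) ℝ) i j) x‖ ≤ q.ε * q.R⁻¹ ^ m) → ∀ i j, ∀ m ≤ 3, ∀ x,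
      ‖iteratedFDeriv ℝ m (fun x => s x i j) x‖ ≤ 2 * q.R⁻¹ ^ m := by
    intro s hs i j m hm x
    have h1 := hs i j m (by omega) x
    rcases m with _ | m
    · rw [norm_iteratedFDeriv_zero, pow_zero, mul_one, Real.norm_eq_abs] at h1 ⊢
      have h2 : |(1 : Matrix (Fin n) (Fin n) ℝ) i j| ≤ 1 := by
        rw [Matrix.one_apply]; split_ifs <;> simp
      have h3 := abs_sub_abs_le_abs_sub (s x i j) ((1 : Matrix (Fin n) (Fin n) ℝ) i j)
      linarith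
    · have e : (fderiv ℝ fun x => s x i j - (1 : Matrix (Fin n) (Fin n) ℝ) i j) =
          fderiv ℝ fun x => s x i j := by
        funext x
        exact fderiv_sub_const _
      rw [← norm_iteratedFDeriv_fderiv, e, norm_iteratedFDeriv_fderiv] at h1
      refine h1.trans (mul_le_mul_of_nonneg_right (by linarith) (by positivity))
  refine ⟨hR, h.rg.sm₁, h.rg.sm₂, fun x i j => ((h.rg.sy₁ x).apply i j).symm,
    fun x i j => ((h.rg.sy₂ x).apply i j).symm, key _ h.rg.cl₁, key _ h.rg.cl₂, hf⟩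

/-- The constants. -/
structure Cns (n : ℕ) (C₁ : ℝ) (CL : ℝ → ℝ) : Prop where
  sb : ∀ (R : ℝ) (s₁ s₂ : MF n) (f : VV n → ℝ), Bs R s₁ s₂ f → ∀ z : VV n,
    Sb4 (slx (fun _ => 1) s₁) (sly (fun _ => 1) s₂) f C₁ (fun j => gm R f j z) z ∧
    Sb4 (sly (fun _ => 1) s₂) (slx (fun _ => 1) s₁) f C₁ (fun j => gm R f j z) z
  lv : ∀ s R kap Gs : ℝ, 0 < s → s ≤ 1 / 5000 → 0 < R → ∀ x ∈ Bw n s R, ∀ j ≤ 3,
    ‖iteratedFDeriv ℝ (j + 1) (levG n s R kap Gs) x‖ ≤ CL s * R⁻¹ ^ j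

theorem exists_cns (hn : 1 ≤ n) : ∃ (C₁ : ℝ) (CL : ℝ → ℝ), 1 ≤ C₁ ∧ (∀ s, 1 ≤ CL s) ∧
    Cns n C₁ CL := by
  obtain ⟨C, h0, h⟩ := sb_pt n
  obtain ⟨CL, h1, h2⟩ := lev_der hn
  refine ⟨C + 1, CL, by linarith, h1, ⟨fun R s₁ s₂ f hb z => ?_, h2⟩⟩
  obtain ⟨a, b⟩ := h R s₁ s₂ f hb z
  have g0 : ∀ j, 0 ≤ gm R f j z := fun j => gm_nn (one_pos.trans_le hb.R1) _ _ _
  exact ⟨a.mono g0 (by linarith), b.mono g0 (by linarith)⟩

/-- The slot of `x`. -/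
theorem syx (hn : 1 ≤ n) (c : Cns n C₁ CL) (co : SCo n C₁ CL q) (h : PkOk q d) (hr : RhoP q d)
    {z : VV n} (hz : DeepOk q.σ q.R (H475.gg n q.σ) d.l z) :
    Sy q d C₁ (C₁ * CL q.σ) d.sx Prod.fst d.s₁ (fun z => rhS q d z + TT q d (d.l z.2))
      (rhS q d) z := by
  have hq := co.inf
  have hR := hq.R0
  have hR1 := hq.R1
  have hn' : (1 : ℝ) ≤ n := by exact_mod_cast hn
  have he1 : q.ε ≤ 1 := by nlinarith [co.ε1, co.ε0]
  have hε : n * q.ε ≤ 1 / 2 := by linarith [co.ε1, mul_comm (n : ℝ) q.ε]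
  have m1 := mt₁ le_rfl hR h.rg
  have m2 := mt₂ le_rfl hR h.rg
  have sr := rhS_sm h hε
  have C0 : 0 ≤ C₁ := by linarith [co.c1]
  have a1 := (gl_le hq h).1 hz.g1
  have b := (c.sb q.R d.s₁ d.s₂ (rhS q d) (bs_of h hR1 he1 sr) z).1
  have g : ∀ j ≤ 3, gm q.R (rhS q d) j z ≤ 4 * q.R⁻¹ ^ 8 := fun j hj => by
    have h1 := gm_le hR1 (f := rhS q d) (z := z) (k := 3) (δ := q.R⁻¹ ^ 8) (by positivity)
      (fun i h1 h2 => rhS_bd hq h hr hz h1 h2) hj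
    refine h1.trans (mul_le_mul_of_nonneg_right ?_ (by positivity))
    have : (j : ℝ) ≤ 3 := by exact_mod_cast hj
    linarith
  have g' : ∀ j ≤ 3, C₁ * gm q.R (rhS q d) j z ≤ dl C₁ q := fun j hj => by
    have := mul_le_mul_of_nonneg_left (g j hj) C0
    unfold dl
    linarith
  have bL := (c.sb q.R d.s₁ d.s₂ (fun z => d.l z.1) (bs_of h hR1 he1
    (h.lev.sm.comp contDiff_fst)) z).1
  have hx : z.1 ∈ Bw n q.σ q.R := by
    refine Bw_of (kap := d.kap) (Gs := d.Gs) hq.σ0 hq.σ1 hR ?_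
    rw [← h.lev.lit, ← l₀_eq]
    linarith
  have k : ∀ j ≤ 3, gm q.R (fun z : VV n => d.l z.1) j z ≤ (j + 1) * (CL q.σ * q.R⁻¹ ^ j) :=
    fun j hj => gm_sym hR (k := 3) (fun i hi => (nit_fst h.lev.sm (i + 1) z).trans (by
      rw [h.lev.lit]
      exact c.lv q.σ q.R d.kap d.Gs hq.σ0 hq.σ1 hR z.1 hx i hi)) hj
  refine ⟨pj_x _, m1, ok_x m1 m2, sr.add (T_y h), fun w i => ?_, hz.g1,
    fun i => (b.d1 i).trans (g' 0 (by norm_num)), fun i j => (b.d2 i j).trans (g' 1 (by norm_num)),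
    b.L1.trans (g' 1 (by norm_num)), b.m1.trans (g' 3 (by norm_num)), fun i => ?_,
    fun i j => ?_, ?_⟩
  · have e1 := D_add d.sx isOpen_univ sr.contDiffOn (T_y h).contDiffOn i (mem_univ w)
    have e2 : d.sx.D i (fun z : VV n => TT q d (d.l z.2)) w = 0 :=
      Dx_snd (g := fun x => TT q d (d.l x))
        (((sm_T h).comp h.lev.sm).differentiable (by simp) w.2) i
    rw [e1, e2, add_zero]
  · have h1 := k 0 (by norm_num)
    have h2 := (bL.d1 i).trans (mul_le_mul_of_nonneg_left h1 C0)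
    refine h2.trans (le_of_eq ?_)
    push_cast
    ring
  · have h1 := k 1 (by norm_num)
    have h2 := (bL.d2 i j).trans (mul_le_mul_of_nonneg_left h1 C0)
    refine h2.trans (le_of_eq ?_)
    push_cast
    ring
  · have h1 := k 3 (by norm_num)
    have h2 := bL.m1.trans (mul_le_mul_of_nonneg_left h1 C0)
    refine h2.trans (le_of_eq ?_)
    push_cast
    ring

/-- The slot of `y`. -/
theorem syy (hn : 1 ≤ n) (c : Cns n C₁ CL) (co : SCo n C₁ CL q) (h : PkOk q d) (hr : RhoP q d)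
    {z : VV n} (hz : DeepOk q.σ q.R (H475.gg n q.σ) d.l z) :
    Sy q d C₁ (C₁ * CL q.σ) d.sy Prod.snd d.s₂ (fun z => rhS q d z + TT q d (d.l z.1))
      (rhS q d) z := by
  have hq := co.inf
  have hR := hq.R0
  have hR1 := hq.R1
  have hn' : (1 : ℝ) ≤ n := by exact_mod_cast hn
  have he1 : q.ε ≤ 1 := by nlinarith [co.ε1, co.ε0]
  have hε : n * q.ε ≤ 1 / 2 := by linarith [co.ε1, mul_comm (n : ℝ) q.ε]
  have m1 := mt₁ le_rfl hR h.rg
  have m2 := mt₂ le_rfl hR h.rg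
  have sr := rhS_sm h hε
  have C0 : 0 ≤ C₁ := by linarith [co.c1]
  have a1 := (gl_le hq h).1 hz.g2
  have b := (c.sb q.R d.s₁ d.s₂ (rhS q d) (bs_of h hR1 he1 sr) z).2
  have g : ∀ j ≤ 3, gm q.R (rhS q d) j z ≤ 4 * q.R⁻¹ ^ 8 := fun j hj => by
    have h1 := gm_le hR1 (f := rhS q d) (z := z) (k := 3) (δ := q.R⁻¹ ^ 8) (by positivity)
      (fun i h1 h2 => rhS_bd hq h hr hz h1 h2) hj
    refine h1.trans (mul_le_mul_of_nonneg_right ?_ (by positivity))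
    have : (j : ℝ) ≤ 3 := by exact_mod_cast hj
    linarith
  have g' : ∀ j ≤ 3, C₁ * gm q.R (rhS q d) j z ≤ dl C₁ q := fun j hj => by
    have := mul_le_mul_of_nonneg_left (g j hj) C0
    unfold dl
    linarith
  have bL := (c.sb q.R d.s₁ d.s₂ (fun z => d.l z.2) (bs_of h hR1 he1
    (h.lev.sm.comp contDiff_snd)) z).2
  have hx : z.2 ∈ Bw n q.σ q.R := by
    refine Bw_of (kap := d.kap) (Gs := d.Gs) hq.σ0 hq.σ1 hR ?_
    rw [← h.lev.lit, ← l₀_eq]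
    linarith
  have k : ∀ j ≤ 3, gm q.R (fun z : VV n => d.l z.2) j z ≤ (j + 1) * (CL q.σ * q.R⁻¹ ^ j) :=
    fun j hj => gm_sym hR (k := 3) (fun i hi => (nit_snd h.lev.sm (i + 1) z).trans (by
      rw [h.lev.lit]
      exact c.lv q.σ q.R d.kap d.Gs hq.σ0 hq.σ1 hR z.2 hx i hi)) hj
  refine ⟨pj_y _, m2, ok_y m1 m2, sr.add (T_x h), fun w i => ?_, hz.g2,
    fun i => (b.d1 i).trans (g' 0 (by norm_num)), fun i j => (b.d2 i j).trans (g' 1 (by norm_num)),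
    b.L1.trans (g' 1 (by norm_num)), b.m1.trans (g' 3 (by norm_num)), fun i => ?_,
    fun i j => ?_, ?_⟩
  · have e1 := D_add d.sy isOpen_univ sr.contDiffOn (T_x h).contDiffOn i (mem_univ w)
    have e2 : d.sy.D i (fun z : VV n => TT q d (d.l z.1)) w = 0 :=
      Dy_fst (g := fun x => TT q d (d.l x))
        (((sm_T h).comp h.lev.sm).differentiable (by simp) w.1) i
    rw [e1, e2, add_zero]
  · have h1 := k 0 (by norm_num)
    have h2 := (bL.d1 i).trans (mul_le_mul_of_nonneg_left h1 C0)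
    refine h2.trans (le_of_eq ?_)
    push_cast
    ring
  · have h1 := k 1 (by norm_num)
    have h2 := (bL.d2 i j).trans (mul_le_mul_of_nonneg_left h1 C0)
    refine h2.trans (le_of_eq ?_)
    push_cast
    ring
  · have h1 := k 3 (by norm_num)
    have h2 := bL.m1.trans (mul_le_mul_of_nonneg_left h1 C0)
    refine h2.trans (le_of_eq ?_)
    push_cast
    ring

/-- The weight in the two slots. -/
theorem W_x (q : Cst) (d : Pk n) :
    Wf q d Prod.fst (fun z => rhS q d z + TT q d (d.l z.2)) = d.W q := by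
  funext z
  unfold Wf rhS
  ring

theorem W_y (q : Cst) (d : Pk n) :
    Wf q d Prod.snd (fun z => rhS q d z + TT q d (d.l z.1)) = d.W q := by
  funext z
  unfold Wf rhS
  ring

theorem W_s (q : Cst) (d : Pk n) :
    (fun z => rhS q d z + TT q d (d.l z.1) + TT q d (d.l z.2)) = d.W q := by
  funext z
  unfold rhS
  ring

end Vale.Agent.P088.R2.H380.INF
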