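import Vale.Agent.P088.R2.H380.INF.ZnS

/-!
# P088, stage 3, zone INF, leaf iS: the conditions on the constants
-/

open MeasureTheory Set Filter
open scoped ContDiff Topology Matrix

noncomputable section

namespace Vale.Agent.P088.R2.H380.INF

open Vale.Agent.P088.R2.H31.EP
open Vale.Agent.P088.R2.H404.INF (InfC evInf)

variable {n : ℕ}

theorem pow_exp_lin (k : ℕ) {a : ℝ} (ha : 0 < a) :
    Tendsto (fun R : ℝ => R ^ k * Real.exp (-(a * R))) atTop (𝓝 0) := by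
  have h1 := (Real.tendsto_pow_mul_exp_neg_atTop_nhds_zero k).comp
    (tendsto_id.const_mul_atTop ha)
  have h2 := h1.const_mul ((a ^ k)⁻¹)
  rw [mul_zero] at h2
  refine h2.congr fun R => ?_
  simp only [Function.comp, id]
  rw [mul_pow]
  field_simp

theorem pow_exp_sqrt (k : ℕ) {a : ℝ} (ha : 0 < a) :
    Tendsto (fun R : ℝ => R ^ k * Real.exp (-(a * √R))) atTop (𝓝 0) := by
  have h1 := (pow_exp_lin (2 * k) ha).comp Real.tendsto_sqrt_atTop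
  refine h1.congr' ?_
  filter_upwards [eventually_ge_atTop 0] with R hR
  simp only [Function.comp]
  rw [pow_mul, Real.sq_sqrt hR]

theorem ev_le {f : ℝ → ℝ} (h : Tendsto f atTop (𝓝 0)) {δ : ℝ} (hδ : 0 < δ) :
    ∀ᶠ t in atTop, f t ≤ δ := by
  filter_upwards [(tendsto_order.1 h).2 δ hδ] with t ht using ht.le

theorem sml_mul {K δ : ℝ} (hK : 0 ≤ K) (hδ : 0 < δ) : ∀ᶠ t in sml, K * t ≤ δ := by
  filter_upwards [sml_le (a := δ / (K + 1)) (by positivity)] with t ht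
  have h1 : K * t ≤ K * (δ / (K + 1)) := mul_le_mul_of_nonneg_left ht hK
  refine h1.trans ?_
  rw [mul_div_assoc', div_le_iff₀ (by positivity)]
  nlinarith

/-- `eT` is negligible. -/
theorem ev_eT (q : Cst) : ∀ᶠ t : ℝ in atTop, 0 < q.σ → 0 < q.C₄ →
    10 ^ 10 * eT { q with R := t } ≤ (q.σ / t) ^ 2 := by
  by_cases hσ : 0 < q.σ
  swap
  · exact Eventually.of_forall fun t h => absurd h hσ
  by_cases hC : 0 < q.C₄
  swap
  · exact Eventually.of_forall fun t _ h => absurd h hC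
  have c0 : 0 < cT := by linarith [cT_ge]
  set a := q.C₄ / q.σ with ha
  have a0 : 0 < a := div_pos hC hσ
  have k1 := (pow_exp_lin 2 (a := 2 * a) (by positivity)).const_mul
    (10 ^ 10 * cT * (20 * a) ^ 4 * Real.exp (20 * a))
  have k2 := (pow_exp_sqrt 6 (a := 4 / 100) (by norm_num)).const_mul
    (10 ^ 10 * cT * Real.exp 1)
  rw [mul_zero] at k1 k2
  filter_upwards [ev_le k1 (δ := q.σ ^ 2 / 2) (by positivity),
    ev_le k2 (δ := q.σ ^ 2 / 2) (by positivity), eventually_gt_atTop 0] with R h1 h2 hR _ _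
  rw [div_pow, le_div_iff₀ (by positivity)]
  have e1 : 10 ^ 10 * eT { q with R := R } * R ^ 2 =
      10 ^ 10 * cT * (20 * a) ^ 4 * Real.exp (20 * a) * (R ^ 2 * Real.exp (-(2 * a * R))) +
      10 ^ 10 * cT * Real.exp 1 * (R ^ 6 * Real.exp (-(4 / 100 * √R))) := by
    unfold eT Cst.tnL Cst.tny Cst.A₄ Cst.L₄
    have x1 : Real.exp (q.C₄ * R / q.σ) * Real.exp (-(20 * q.C₄ / q.σ * (3 / 10 * R / 2 - 1))) =
        Real.exp (20 * a) * Real.exp (-(2 * a * R)) := by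
      rw [← Real.exp_add, ← Real.exp_add]
      congr 1
      rw [ha]
      field_simp
      ring
    have x2 : Real.exp (1 - 4 / 100 * √R) = Real.exp 1 * Real.exp (-(4 / 100 * √R)) := by
      rw [← Real.exp_add]
      congr 1
    have x3 : 20 * q.C₄ / q.σ = 20 * a := by rw [ha]; ring
    simp only
    rw [x1, x2, x3]
    ring
  rw [e1]
  linarith

/-- The two polynomial conditions on `R`. -/
theorem ev_R (q : Cst) (K : ℝ) : ∀ᶠ t : ℝ in atTop, 0 < q.σ →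
    K * t⁻¹ ^ 8 ≤ (q.σ / t) ^ 2 ∧ K * t⁻¹ ^ 3 ≤ (q.σ / t) ^ 2 := by
  by_cases hσ : 0 < q.σ
  swap
  · exact Eventually.of_forall fun t h => absurd h hσ
  filter_upwards [eventually_ge_atTop 1, eventually_ge_atTop (|K| / q.σ ^ 2)] with t h1 h2 _
  have t0 : 0 < t := by linarith
  rw [div_le_iff₀ (by positivity)] at h2
  have h3 : |K| * t⁻¹ ^ 3 ≤ (q.σ / t) ^ 2 := by
    rw [inv_pow, ← div_eq_mul_inv, div_pow, div_le_div_iff₀ (by positivity) (by positivity)]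
    have : |K| * t ^ 2 ≤ t * q.σ ^ 2 * t ^ 2 := mul_le_mul_of_nonneg_right h2 (by positivity)
    linarith
  have h4 : t⁻¹ ^ 8 ≤ t⁻¹ ^ 3 :=
    pow_le_pow_of_le_one (by positivity) (inv_le_one_of_one_le₀ h1) (by norm_num)
  have h5 : K ≤ |K| := le_abs_self K
  constructor
  · refine le_trans ?_ h3
    exact (mul_le_mul_of_nonneg_right h5 (by positivity)).trans
      (mul_le_mul_of_nonneg_left h4 (abs_nonneg K))
  · exact (mul_le_mul_of_nonneg_right h5 (by positivity)).trans h3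

/-- **The conditions.** -/
theorem evSCo (n : ℕ) {C₁ : ℝ} {CL : ℝ → ℝ} (hC : 1 ≤ C₁) (hL : ∀ s, 1 ≤ CL s) :
    EvC (SCo n C₁ CL) := by
  have a1 : EvC fun q => 0 < q.σ → (q.ε * n ≤ 1 / 100 ∧ (n : ℝ) ^ 3 * q.ε ≤ q.σ / 1200 ∧
      3 * (n : ℝ) ^ 2 * (q.ε * (C₁ * CL q.σ)) ≤ q.σ / 100) := by
    refine EvC.at_ε (fun q t => 0 < q.σ → (t * n ≤ 1 / 100 ∧ (n : ℝ) ^ 3 * t ≤ q.σ / 1200 ∧
      3 * (n : ℝ) ^ 2 * (t * (C₁ * CL q.σ)) ≤ q.σ / 100)) fun q => ?_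
    by_cases hσ : 0 < q.σ
    swap
    · exact Eventually.of_forall fun t h => absurd h hσ
    have hK : 0 ≤ 3 * (n : ℝ) ^ 2 * (C₁ * CL q.σ) := by
      have := hL q.σ
      positivity
    filter_upwards [sml_mul (K := n) (by positivity) (by norm_num : (0 : ℝ) < 1 / 100),
      sml_mul (K := (n : ℝ) ^ 3) (by positivity) (by positivity : 0 < q.σ / 1200),
      sml_mul hK (by positivity : 0 < q.σ / 100)] with t b1 b2 b3 _
    refine ⟨by linarith, b2, ?_⟩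
    linarith
  have a2 : EvC fun q => 3 * (KK q + 3) ≤ q.M₀ :=
    EvC.at_M₀ (fun q t => 3 * (KK q + 3) ≤ t) fun q => eventually_ge_atTop _
  have a3 : EvC fun q => 0 < q.σ →
      10 ^ 10 * (n : ℝ) ^ 3 * (C₁ * CL q.σ) * (4 * C₁) * q.R⁻¹ ^ 8 ≤ (q.σ / q.R) ^ 2 :=
    EvC.at_R (fun q t => 0 < q.σ →
      10 ^ 10 * (n : ℝ) ^ 3 * (C₁ * CL q.σ) * (4 * C₁) * t⁻¹ ^ 8 ≤ (q.σ / t) ^ 2) fun q => by
      filter_upwards [ev_R q (10 ^ 10 * (n : ℝ) ^ 3 * (C₁ * CL q.σ) * (4 * C₁))] with t h hs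
      exact (h hs).1
  have a4 : EvC fun q => 0 < q.σ →
      10 ^ 8 * (q.M₀ * (C₁ * CL q.σ)) * q.R⁻¹ ^ 3 ≤ (q.σ / q.R) ^ 2 :=
    EvC.at_R (fun q t => 0 < q.σ →
      10 ^ 8 * (q.M₀ * (C₁ * CL q.σ)) * t⁻¹ ^ 3 ≤ (q.σ / t) ^ 2) fun q => by
      filter_upwards [ev_R q (10 ^ 8 * (q.M₀ * (C₁ * CL q.σ)))] with t h hs
      exact (h hs).2
  have a5 : EvC fun q => (n : ℝ) * (q.σ / q.R) ≤ 1 / 2 := by
    refine EvC.at_R (fun q t => (n : ℝ) * (q.σ / t) ≤ 1 / 2) fun q => ?_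
    have h := (tendsto_inv_atTop_zero (𝕜 := ℝ)).const_mul ((n : ℝ) * q.σ)
    rw [mul_zero] at h
    filter_upwards [ev_le h (by norm_num : (0 : ℝ) < 1 / 2)] with t ht
    rw [div_eq_mul_inv, ← mul_assoc]
    exact ht
  have a6 : EvC fun q => 0 < q.σ → 0 < q.C₄ → 10 ^ 10 * eT q ≤ (q.σ / q.R) ^ 2 :=
    EvC.at_R (fun q t => 0 < q.σ → 0 < q.C₄ → 10 ^ 10 * eT { q with R := t } ≤ (q.σ / t) ^ 2)
      ev_eT
  refine (((evInf.and EvC.pos).and (a1.and a2)).and ((a3.and a4).and (a5.and a6))).mono ?_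
  rintro q ⟨⟨⟨i, p⟩, b1, b2⟩, ⟨b3, b4⟩, b5, b6⟩
  obtain ⟨-, ⟨-, hσ, -, -, -, -, hC4⟩, hM, -, hε, -, -, hR⟩ := p
  obtain ⟨c1, c2, c3⟩ := b1 hσ
  have h3 := b3 hσ
  refine ⟨i, hC, hL _, hε.le, c1, c2, c3, ?_, hM, b2, ?_, b4 hσ, b5, b6 hσ (by linarith)⟩
  · have h1 := i.σ1
    unfold Cst.L₄
    rw [le_div_iff₀ hσ]
    linarith
  · refine le_trans (le_of_eq ?_) h3
    ring

end Vale.Agent.P088.R2.H380.INF
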