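import Vale.Agent.P088.R2.H31.EP.Pack
import Vale.Agent.P088.R2.H168.INF.No3

/-!
# P088, stage 3, zone INF: the letters of the leaf iS

`n_x = M₀ + Θ'(l(x))`, `n_y = M₀ + Θ'(l(y))`, `lam = s n_x / 100`, `mu = s n_y / 100`, `s = σ / R`.
-/

open Set Filter MeasureTheory
open scoped ContDiff Topology Matrix

noncomputable section

namespace Vale.Agent.P088.R2.H380.INF

open Vale.Agent.P088.LR Vale.Agent.P088.HY
open Vale.Agent.P088.R2.H31.EP Vale.Agent.P088.R2.H961.GW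

variable {n : ℕ}

/-- `n_x`. -/
def nX (q : Cst) (d : Pk n) (z : VV n) : ℝ := q.M₀ + deriv d.Θ (d.l z.1)

/-- `n_y`. -/
def nY (q : Cst) (d : Pk n) (z : VV n) : ℝ := q.M₀ + deriv d.Θ (d.l z.2)

/-- The multipliers. -/
def lmS (q : Cst) (d : Pk n) (z : VV n) : ℝ := 1 / 100 * (q.σ / q.R) * nX q d z
def muS (q : Cst) (d : Pk n) (z : VV n) : ℝ := 1 / 100 * (q.σ / q.R) * nY q d z

/-- The error. -/
def eS (q : Cst) : ℝ := 1 / 10 ^ 6 * (q.σ / q.R) ^ 2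

/-- **The margin of the leaf iS** (without the factor `χ²`). -/
def MiS (q : Cst) (d : Pk n) : H551.E.Q8 (VV n) where
  κ _ := 1
  ζ₁ z := lmS q d z / 6
  ζ₂ z := muS q d z / 6
  ζy _ := 0
  w₁ z := lmS q d z * d.sx.F (d.W q) z / 2 + 1 / 10 ^ 4 * ((q.σ / q.R) * nX q d z) ^ 2
  w₂ z := muS q d z * d.sy.F (d.W q) z / 2 + 1 / 10 ^ 4 * ((q.σ / q.R) * nY q d z) ^ 2
  wb _ := 0
  wc _ := 0

/-- **The cost of the leaf iS** with the cut-off `χ`. -/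
def CiS (χ : VV n → ℝ) (q : Cst) (d : Pk n) : H551.E.Q8 (VV n) :=
  H168.INF.cS d.sx d.sy (d.W q) χ (lmS q d) (muS q d)

end Vale.Agent.P088.R2.H380.INF
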