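import Vale.Agent.P088.R2.H168.INF.Lvp
import Vale.Agent.P088.R2.H269.INF.Geo
import Vale.Agent.P088.R2.H380.INF.Sbp

/-!
# P088, stage 3, zone INF: the level function in the slots, upper bounds
-/

open MeasureTheory Set Filter
open scoped ContDiff Topology Matrix

noncomputable section

namespace Vale.Agent.P088.R2.H380.INF

open Vale.Agent.P088.R2.H961.GW Vale.Agent.P088.R2.H960.W Vale.Agent.P088.R2.H644
open Vale.Agent.P088.R2.H551.E Vale.Agent.P088.LR Vale.Agent.P088.HY Vale.Agent.P088.R2.H475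
open Vale.Agent.P088.R2.H168.INF Vale.Agent.P088.R2.H269.INF

variable {n : ℕ}

/-- The derivatives of the level in the ball `|w| < 2`. -/
theorem lev_der (hn : 1 ≤ n) : ∃ C : ℝ → ℝ, (∀ s, 1 ≤ C s) ∧ ∀ s R kap Gs : ℝ, 0 < s →
    s ≤ 1 / 5000 → 0 < R → ∀ x ∈ Bw n s R, ∀ j ≤ 3,
      ‖iteratedFDeriv ℝ (j + 1) (levG n s R kap Gs) x‖ ≤ C s * R⁻¹ ^ j := by
  have key : ∀ s : ℝ, ∃ C : ℝ, 1 ≤ C ∧ (0 < s → s ≤ 1 / 5000 → ∀ R kap Gs : ℝ, 0 < R →
      ∀ x ∈ Bw n s R, ∀ j ≤ 3,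
        ‖iteratedFDeriv ℝ (j + 1) (levG n s R kap Gs) x‖ ≤ C * R⁻¹ ^ j) := by
    intro s
    by_cases h : 0 < s ∧ s ≤ 1 / 5000
    · have hs := sf_lev (α := {p : ℝ × ℝ × ℝ // 0 < p.1}) hn h.1 h.2 (fun a => a.1.1)
        (fun a => a.1.2.1) (fun a => a.1.2.2) (fun a => a.2) 3
      have h1 : ∀ j, ∃ C : ℝ, j ≤ 3 → ∀ a : {p : ℝ × ℝ × ℝ // 0 < p.1}, ∀ z ∈ Bw n s a.1.1,
          ‖iteratedFDeriv ℝ j (fderiv ℝ (levG n s a.1.1 a.1.2.1 a.1.2.2)) z‖ ≤
            C * (1 * (a.1.1)⁻¹ ^ j) := by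
        intro j
        by_cases hj : j ≤ 3
        · obtain ⟨C, hC⟩ := hs.bd j hj
          exact ⟨C, fun _ => hC⟩
        · exact ⟨0, fun h => absurd h hj⟩
      choose C hC using h1
      refine ⟨1 + |C 0| + |C 1| + |C 2| + |C 3|, by
        have := abs_nonneg (C 0); have := abs_nonneg (C 1); have := abs_nonneg (C 2)
        have := abs_nonneg (C 3); linarith, fun _ _ R kap Gs hR x hx j hj => ?_⟩
      have h2 := hC j hj ⟨(R, kap, Gs), hR⟩ x hx
      rw [norm_iteratedFDeriv_fderiv, one_mul] at h2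
      refine h2.trans (mul_le_mul_of_nonneg_right ?_ (by positivity))
      have h3 := le_abs_self (C j)
      have := abs_nonneg (C 0); have := abs_nonneg (C 1); have := abs_nonneg (C 2)
      have := abs_nonneg (C 3)
      interval_cases j <;> linarith
    · exact ⟨1, le_rfl, fun h1 h2 => absurd ⟨h1, h2⟩ h⟩
  choose C hC using key
  exact ⟨C, fun s => (hC s).1, fun s R kap Gs h0 h1 hR x hx j hj =>
    (hC s).2 h0 h1 R kap Gs hR x hx j hj⟩

/-- Derivatives of a function of one point. -/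
theorem nit_fst {g : V n → ℝ} (hg : ContDiff ℝ ∞ g) (j : ℕ) (z : VV n) :
    ‖iteratedFDeriv ℝ j (fun z : VV n => g z.1) z‖ ≤ ‖iteratedFDeriv ℝ j g z.1‖ := by
  have e := (ContinuousLinearMap.fst ℝ (V n) (V n)).iteratedFDeriv_comp_right hg z
    (i := j) (by exact_mod_cast le_top)
  have e2 : (fun z : VV n => g z.1) = g ∘ (ContinuousLinearMap.fst ℝ (V n) (V n)) := rfl
  rw [e2, e]
  refine (ContinuousMultilinearMap.norm_compContinuousLinearMap_le _ _).trans ?_
  rw [Finset.prod_const]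
  exact mul_le_of_le_one_right (norm_nonneg _)
    (pow_le_one₀ (norm_nonneg _) (ContinuousLinearMap.norm_fst_le ℝ (V n) (V n)))

theorem nit_snd {g : V n → ℝ} (hg : ContDiff ℝ ∞ g) (j : ℕ) (z : VV n) :
    ‖iteratedFDeriv ℝ j (fun z : VV n => g z.2) z‖ ≤ ‖iteratedFDeriv ℝ j g z.2‖ := by
  have e := (ContinuousLinearMap.snd ℝ (V n) (V n)).iteratedFDeriv_comp_right hg z
    (i := j) (by exact_mod_cast le_top)
  have e2 : (fun z : VV n => g z.2) = g ∘ (ContinuousLinearMap.snd ℝ (V n) (V n)) := rfl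
  rw [e2, e]
  refine (ContinuousMultilinearMap.norm_compContinuousLinearMap_le _ _).trans ?_
  rw [Finset.prod_const]
  exact mul_le_of_le_one_right (norm_nonneg _)
    (pow_le_one₀ (norm_nonneg _) (ContinuousLinearMap.norm_snd_le ℝ (V n) (V n)))

/-- Graded sizes of a symbol of size `1`. -/
theorem gm_sym {R C : ℝ} (hR : 0 < R) {f : VV n → ℝ} {z : VV n} {k : ℕ}
    (h : ∀ i ≤ k, ‖iteratedFDeriv ℝ (i + 1) f z‖ ≤ C * R⁻¹ ^ i) {j : ℕ} (hj : j ≤ k) :
    gm R f j z ≤ (j + 1) * (C * R⁻¹ ^ j) := by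
  unfold gm
  have h1 : ∀ i ∈ Finset.range (j + 1),
      ‖iteratedFDeriv ℝ (i + 1) f z‖ * R⁻¹ ^ (j - i) ≤ C * R⁻¹ ^ j := by
    intro i hi
    have hi' : i < j + 1 := Finset.mem_range.1 hi
    have a1 := mul_le_mul_of_nonneg_right (h i (by omega))
      (pow_nonneg (inv_nonneg.2 hR.le) (j - i))
    refine a1.trans (le_of_eq ?_)
    rw [mul_assoc, ← pow_add, show i + (j - i) = j by omega]
  refine (Finset.sum_le_sum h1).trans (le_of_eq ?_)
  rw [Finset.sum_const, Finset.card_range, nsmul_eq_mul]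
  push_cast
  ring

section slot

variable {E : Type*} [NormedAddCommGroup E] [NormedSpace ℝ E]
variable {σ : Sl E (Fin n)} {π : E → V n} {s : MF n} {ε R : ℝ} {z : E} {g : V n → ℝ}

/-- `Λ` of a function of one point whose Hessian is large. -/
theorem lam_lo (p : Pj σ π s) (m : Mt ε R s) (hg : ContDiff ℝ ∞ g) (z : E) {h w₁ w₂ : ℝ}
    (he : 0 ≤ ε) (hR : 0 < R)
    (hh : ∀ U : V n, h * HY.sq U ≤ ∑ i, ∑ j, U i * U j * pd j (pd i g) (π z))
    (b1 : ∀ i, |pd i g (π z)| ≤ w₁) (b2 : ∀ i j, |pd j (pd i g) (π z)| ≤ w₂) :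
    n * h - (n : ℝ) ^ 2 * (ε * w₂ + ε / R * w₁) ≤ σ.Λ (fun z => g (π z)) z := by
  have e : σ.Λ (fun z => g (π z)) z = ∑ i, ∑ j, ((1 : Matrix (Fin n) (Fin n) ℝ) i j *
      pd i (pd j g) (π z) + ((s (π z) i j - (1 : Matrix (Fin n) (Fin n) ℝ) i j) *
        pd i (pd j g) (π z) + pd i (fun x => s x i j) (π z) * pd j g (π z))) := by
    unfold Sl.Λ
    refine Finset.sum_congr rfl fun i _ => Finset.sum_congr rfl fun j _ => ?_
    rw [p.DDL hg j i, p.Ds m.sm, p.s, p.k, p.D j g z (hg.differentiable (by simp) _)]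
    ring
  have e1 : ∑ i, ∑ j, (1 : Matrix (Fin n) (Fin n) ℝ) i j * pd i (pd j g) (π z) =
      ∑ i, pd i (pd i g) (π z) := by
    refine Finset.sum_congr rfl fun i _ => ?_
    rw [Finset.sum_eq_single i]
    · simp
    · intro j _ hj
      simp [Matrix.one_apply_ne' hj]
    · simp
  have t1 : ∀ i, h ≤ pd i (pd i g) (π z) := by
    intro i
    have h1 := hh (Pi.single i 1)
    have e2 : HY.sq (Pi.single i (1 : ℝ) : V n) = 1 := by
      unfold HY.sq
      rw [Finset.sum_eq_single i]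
      · simp
      · intro j _ hj
        simp [Pi.single_eq_of_ne hj]
      · simp
    have e3 : ∑ k, ∑ j, (Pi.single i (1 : ℝ) : V n) k * (Pi.single i (1 : ℝ) : V n) j *
        pd j (pd k g) (π z) = pd i (pd i g) (π z) := by
      rw [Finset.sum_eq_single i, Finset.sum_eq_single i]
      · simp
      · intro j _ hj
        simp [Pi.single_eq_of_ne hj]
      · simp
      · intro j _ hj
        refine Finset.sum_eq_zero fun k _ => ?_
        simp [Pi.single_eq_of_ne hj]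
      · simp
    rw [e2, e3, mul_one] at h1
    exact h1
  have t2 : n * h ≤ ∑ i, pd i (pd i g) (π z) := by
    have := Finset.card_nsmul_le_sum Finset.univ (fun i => pd i (pd i g) (π z)) h
      fun i _ => t1 i
    simpa [nsmul_eq_mul] using this
  have w20 : ∀ i j : Fin n, |(s (π z) i j - (1 : Matrix (Fin n) (Fin n) ℝ) i j) *
        pd i (pd j g) (π z) + pd i (fun x => s x i j) (π z) * pd j g (π z)| ≤
        ε * w₂ + ε / R * w₁ := by
    intro i j
    refine (abs_add_le _ _).trans (add_le_add ?_ ?_)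
    · rw [abs_mul]
      exact mul_le_mul (m.c0 i j _) (b2 j i) (abs_nonneg _) he
    · rw [abs_mul]
      exact mul_le_mul (m.c1 i j i _) (b1 j) (abs_nonneg _) (by positivity)
  have t3 : -((n : ℝ) ^ 2 * (ε * w₂ + ε / R * w₁)) ≤ ∑ i, ∑ j,
      ((s (π z) i j - (1 : Matrix (Fin n) (Fin n) ℝ) i j) *
        pd i (pd j g) (π z) + pd i (fun x => s x i j) (π z) * pd j g (π z)) := by
    have h1 : |∑ i, ∑ j, ((s (π z) i j - (1 : Matrix (Fin n) (Fin n) ℝ) i j) *
        pd i (pd j g) (π z) + pd i (fun x => s x i j) (π z) * pd j g (π z))| ≤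
        (n : ℝ) ^ 2 * (ε * w₂ + ε / R * w₁) := by
      refine (Finset.abs_sum_le_sum_abs _ _).trans ((Finset.sum_le_sum fun i _ =>
        (Finset.abs_sum_le_sum_abs _ _).trans (Finset.sum_le_sum fun j _ => w20 i j)).trans
        (le_of_eq ?_))
      simp only [Finset.sum_const, Finset.card_univ, Fintype.card_fin, nsmul_eq_mul]
      ring
    exact (abs_le.1 h1).1
  rw [e]
  simp only [Finset.sum_add_distrib] at t3 ⊢
  rw [e1]
  linarith

end slot

end Vale.Agent.P088.R2.H380.INF
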