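import Vale.Agent.P088.R2.H168.INF.Lvp
import Vale.Agent.P088.R2.H269.INF.Add
import Vale.Agent.P088.R2.H380.INF.Alg

/-!
# P088, stage 3, zone INF: the facts about one slot for the leaf iS

`W = T(L) + f`, where the slot sees `f` as the negligible function `ρ`.
-/

open MeasureTheory Set Filter
open scoped ContDiff Topology Matrix

noncomputable section

namespace Vale.Agent.P088.R2.H380.INF

open Vale.Agent.P088.R2.H961.GW Vale.Agent.P088.R2.H960.W Vale.Agent.P088.R2.H644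
open Vale.Agent.P088.R2.H551.E Vale.Agent.P088.LR Vale.Agent.P088.HY Vale.Agent.P088.R2.H475
open Vale.Agent.P088.R2.H168.INF Vale.Agent.P088.R2.H269.INF

section gen

variable {E ι : Type*} [NormedAddCommGroup E] [NormedSpace ℝ E] [Fintype ι]
variable {σ : Sl E ι} {θ : E → ℝ} {f h L W : E → ℝ} {z : E} {T T₁ T₂ T₃ T₄ : ℝ → ℝ}

/-- The Hessian depends only on the derivatives of the slot. -/
theorem HH_of_D (e : ∀ z i, σ.D i f z = σ.D i h z) (A : ι → ℝ) (z : E) :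
    HH σ f z A = HH σ h z A := by
  have e1 : ∀ i, σ.D i f = σ.D i h := fun i => funext fun z => e z i
  unfold HH Sl.Hc
  simp only [e1]

theorem L_of (e : ∀ z i, σ.D i f z = σ.D i h z) : σ.Λ f = σ.Λ h := by
  have e1 : ∀ i, σ.D i f = σ.D i h := fun i => funext fun z => e z i
  funext z
  unfold Sl.Λ
  simp only [e1]

theorem G_of (g : E → ℝ) (e : ∀ z i, σ.D i f z = σ.D i h z) : σ.Γ g f = σ.Γ g h := by
  have e1 : ∀ i, σ.D i f = σ.D i h := fun i => funext fun z => e z i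
  funext z
  unfold Sl.Γ
  simp only [e1]

/-- **The facts about one slot**: `h` bounds the convexity of `L`, `k = h / 2`. -/
theorem slot_all (ok : σ.Ok univ θ) (c₀ : Ch.Cp univ L T T₁ T₂) (c₁ : Ch.Cp univ L T₁ T₂ T₃)
    (c₂ : Ch.Cp univ L T₂ T₃ T₄) (sf : Sm univ f) {hh δ K e e' M : ℝ} (hK : 1 ≤ K)
    (he : 0 ≤ e) (he' : 0 ≤ e') (hh0 : 0 ≤ hh) (hs : ∀ A : ι → ℝ, 0 ≤ ss σ A z)
    (hL : ∀ A : ι → ℝ, hh * ss σ A z ≤ HH σ L z A)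
    (hd : ∀ A : ι → ℝ, |HH σ f z A| ≤ δ * ss σ A z) (hδ : 2 * δ ≤ hh * T₁ (L z))
    (hd2 : |σ.Λ (σ.Λ f) z| ≤ e / 8) (hd3 : |σ.Γ L f z| ≤ M / 4) (t1 : M ≤ T₁ (L z))
    (hM : 3 * (K + 3) ≤ M) (t2 : 0 ≤ T₂ (L z))
    (hc : (9 / 10 ≤ σ.Γ L L z ∧ |σ.Λ L z| ≤ 1 ∧ |σ.Λ (σ.Γ L L) z| ≤ 1 ∧
        σ.Γ L (σ.Λ L) z = 0 ∧ |σ.Γ L (σ.Γ L L) z| ≤ σ.Γ L L z ∧ σ.Λ (σ.Λ L) z = 0 ∧
        |T₃ (L z)| ≤ K * T₂ (L z) + e' ∧ |T₄ (L z)| ≤ K ^ 2 * T₂ (L z) + e' ∧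
        7 * e' * σ.Γ L L z ^ 2 ≤ e / 8) ∨
      (T₂ (L z) = 0 ∧ T₃ (L z) = 0 ∧ T₄ (L z) = 0 ∧ T₁ (L z) * |σ.Λ (σ.Λ L) z| ≤ e / 8)) :
    (∀ A : ι → ℝ, hh / 2 * T₁ (L z) * ss σ A z ≤ HH σ (fun z => T (L z) + f z) z A) ∧
      2 * |σ.Λ (σ.Λ fun z => T (L z) + f z) z| ≤
        e + 2 * HH σ (fun z => T (L z) + f z) z (fun i => σ.D i (fun z => T (L z) + f z) z) ∧
      (∀ k e₀ l₀ : ℝ, 0 ≤ k → |σ.Λ f z| ≤ e₀ → l₀ ≤ σ.Λ L z → 0 ≤ σ.Γ L L z →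
        k * T₁ (L z) * (T₁ (L z) * l₀ - e₀) ≤
          k * T₁ (L z) * σ.Λ (fun z => T (L z) + f z) z +
            σ.Γ (fun z => k * T₁ (L z)) (fun z => T (L z) + f z) z) := by
  have hz : z ∈ (univ : Set E) := mem_univ z
  have t1' : 0 ≤ T₁ (L z) := by linarith
  have H1 : ∀ A : ι → ℝ, hh / 2 * T₁ (L z) * ss σ A z ≤ HH σ (fun z => T (L z) + f z) z A :=
    fun A => by
      have b := slot_h ok c₀ sf hz hs hL hd t1' hδ A
      have : 0 ≤ T₂ (L z) * gA σ L z A ^ 2 := mul_nonneg t2 (sq_nonneg _)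
      linarith
  have H0 : ∀ A : ι → ℝ, 0 ≤ HH σ (fun z => T (L z) + f z) z A := fun A =>
    (mul_nonneg (by positivity) (hs A)).trans (H1 A)
  refine ⟨H1, ?_, ?_⟩
  · rcases hc with ⟨q0, p1, p2, p3, p4, p5, t3, t4, hee⟩ | ⟨z2, z3, z4, hb⟩
    · have b := slot_o ok c₀ c₁ c₂ sf hz hK he' hs hL hd hδ hd2 hd3 hh0 q0 p1 p2 p3 p4 p5 t2 t3 t4
        t1 hM hee
      have := H0 fun i => σ.D i (fun z => T (L z) + f z) z
      linarith
    · have e1 : ∀ z ∈ (univ : Set E), σ.Λ (fun z => T (L z) + f z) z =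
          σ.Λ (fun z => T (L z)) z + σ.Λ f z := fun z hz => L_add ok c₀.s0 sf hz
      have e2 : σ.Λ (σ.Λ fun z => T (L z) + f z) z =
          σ.Λ (σ.Λ fun z => T (L z)) z + σ.Λ (σ.Λ f) z := by
        rw [L_congr ok e1 hz, L_add ok (ok.sL c₀.s0) (ok.sL sf) hz]
      have e3 : σ.Λ (σ.Λ fun z => T (L z)) z = T₁ (L z) * σ.Λ (σ.Λ L) z := by
        rw [LL_comp ok c₀ c₁ c₂ hz, z2, z3, z4]
        ring
      have a1 := abs_add_le (σ.Λ (σ.Λ fun z => T (L z)) z) (σ.Λ (σ.Λ f) z)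
      have a2 : |σ.Λ (σ.Λ fun z => T (L z)) z| ≤ e / 8 := by
        rw [e3, abs_mul, abs_of_nonneg t1']
        exact hb
      have := H0 fun i => σ.D i (fun z => T (L z) + f z) z
      rw [e2]
      linarith
  · intro k e₀ l₀ hk he₀ hl₀ hG
    have e1 : σ.Λ (fun z => T (L z) + f z) z =
        T₁ (L z) * σ.Λ L z + T₂ (L z) * σ.Γ L L z + σ.Λ f z := by
      rw [L_add ok c₀.s0 sf hz, Ch.L_comp ok c₀ hz]
    have e2 : σ.Γ (fun z => k * T₁ (L z)) (fun z => T (L z) + f z) z =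
        k * (T₂ (L z) * (T₁ (L z) * σ.Γ L L z + σ.Γ L f z)) := by
      rw [G_comm ok, G_cmul ok _ k c₁.s0 hz, Ch.G_comp ok _ c₁ hz, G_comm ok _ L,
        G_add ok L c₀.s0 sf hz, Ch.G_comp ok L c₀ hz]
    have g0 : 0 ≤ k * (T₂ (L z) * (T₁ (L z) * σ.Γ L L z + σ.Γ L f z)) := by
      rcases hc with ⟨q0, -⟩ | ⟨z2, -⟩
      · refine mul_nonneg hk (mul_nonneg t2 ?_)
        have h1 := (abs_le.1 hd3).1
        have h2 : M * (9 / 10) ≤ T₁ (L z) * σ.Γ L L z :=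
          mul_le_mul t1 q0 (by norm_num) t1'
        have : 0 ≤ M := by linarith
        linarith
      · rw [z2]; simp
    have g1 : T₁ (L z) * l₀ - e₀ ≤ T₁ (L z) * σ.Λ L z + T₂ (L z) * σ.Γ L L z + σ.Λ f z := by
      have h1 := mul_le_mul_of_nonneg_left hl₀ t1'
      have h2 := mul_nonneg t2 hG
      have h3 := (abs_le.1 he₀).1
      linarith
    rw [e1, e2]
    have g2 := mul_le_mul_of_nonneg_left g1 (mul_nonneg hk t1')
    linarith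

end gen

end Vale.Agent.P088.R2.H380.INF
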