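import Vale.Agent.P088.R2.H380.INF.One
import Vale.Agent.P088.R2.H380.INF.Lv2
import Vale.Agent.P088.R2.H380.INF.Let
import Vale.Agent.P088.R2.H404.INF.Alv
import Vale.Agent.P088.R2.H31.EP.Thx

/-!
# P088, stage 3, zone INF, leaf iS: one slot on the package
-/

open MeasureTheory Set Filter
open scoped ContDiff Topology Matrix

noncomputable section

namespace Vale.Agent.P088.R2.H380.INF

open Vale.Agent.P088.R2.H961.GW Vale.Agent.P088.R2.H960.W Vale.Agent.P088.R2.H644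
open Vale.Agent.P088.R2.H551.E Vale.Agent.P088.LR Vale.Agent.P088.HY Vale.Agent.P088.R2.H475
open Vale.Agent.P088.R2.H168.INF Vale.Agent.P088.R2.H269.INF Vale.Agent.P088.R2.H31.EP
open Vale.Agent.P088.R2.H404.INF (InfC evInf lvG l₀_eq gl_le)

variable {n : ℕ}

/-! ## The function `T` -/

/-- `T t = M₀ t + Θ t`. -/
def TT (q : Cst) (d : Pk n) (t : ℝ) : ℝ := q.M₀ * t + d.Θ t

def T1 (q : Cst) (d : Pk n) (t : ℝ) : ℝ := q.M₀ + deriv d.Θ t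

/-- The constant of the derivatives of `Θ`. -/
def cT : ℝ := 1 + thC 1 + thC 2 + thC 3 + thC 4

/-- The rate of the derivatives of `Θ`. -/
def KK (q : Cst) : ℝ := 1 + cT * q.L₄

/-- The onset error. -/
def eT (q : Cst) : ℝ := cT * (q.L₄ ^ 4 * q.tnL + q.tny)

theorem cT_ge : 1 ≤ cT := by
  unfold cT
  have := thC_nonneg 1
  have := thC_nonneg 2
  have := thC_nonneg 3
  have := thC_nonneg 4
  linarith

section th

variable {q : Cst} {d : Pk n}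

theorem sm_it (h : PkOk q d) (j : ℕ) : ContDiff ℝ ∞ (iteratedDeriv j d.Θ) := by
  induction j with
  | zero => simpa [iteratedDeriv_zero] using h.Θs
  | succ j ih =>
    rw [iteratedDeriv_succ]
    exact (contDiff_infty_iff_deriv.1 ih).2

theorem hd_it (h : PkOk q d) (j : ℕ) (t : ℝ) :
    HasDerivAt (iteratedDeriv j d.Θ) (iteratedDeriv (j + 1) d.Θ t) t := by
  rw [iteratedDeriv_succ]
  exact ((sm_it h j).differentiable (by simp) t).hasDerivAt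

theorem T1_eq (q : Cst) (d : Pk n) : T1 q d = fun t => q.M₀ + iteratedDeriv 1 d.Θ t := by
  funext t
  rw [iteratedDeriv_one]
  rfl

theorem sm_T (h : PkOk q d) : ContDiff ℝ ∞ (TT q d) :=
  (contDiff_const.mul contDiff_id).add h.Θs

theorem sm_T1 (h : PkOk q d) : ContDiff ℝ ∞ (T1 q d) := by
  rw [T1_eq]
  exact contDiff_const.add (sm_it h 1)

theorem hd_T (h : PkOk q d) (t : ℝ) : HasDerivAt (TT q d) (T1 q d t) t := by
  have h1 := ((hasDerivAt_id t).const_mul q.M₀).add (h.Θs.differentiable (by simp) t).hasDerivAt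
  refine h1.congr_deriv ?_
  unfold T1
  ring

theorem hd_T1 (h : PkOk q d) (t : ℝ) : HasDerivAt (T1 q d) (iteratedDeriv 2 d.Θ t) t := by
  rw [T1_eq]
  exact ((hd_it h 1 t).const_add q.M₀)

variable {E : Type*} [NormedAddCommGroup E] [NormedSpace ℝ E] {L : E → ℝ}

theorem cp0 (h : PkOk q d) (hL : ContDiff ℝ ∞ L) :
    Ch.Cp univ L (TT q d) (T1 q d) (iteratedDeriv 2 d.Θ) :=
  Ch.Cp.of hL.contDiffOn (sm_T h) (sm_T1 h) (hd_T h) (hd_T1 h)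

theorem cp1 (h : PkOk q d) (hL : ContDiff ℝ ∞ L) :
    Ch.Cp univ L (T1 q d) (iteratedDeriv 2 d.Θ) (iteratedDeriv 3 d.Θ) :=
  Ch.Cp.of hL.contDiffOn (sm_T1 h) (sm_it h 2) (hd_T1 h) (hd_it h 2)

theorem cp2 (h : PkOk q d) (hL : ContDiff ℝ ∞ L) :
    Ch.Cp univ L (iteratedDeriv 2 d.Θ) (iteratedDeriv 3 d.Θ) (iteratedDeriv 4 d.Θ) :=
  Ch.Cp.of hL.contDiffOn (sm_it h 2) (sm_it h 3) (hd_it h 2) (hd_it h 3)

theorem it2 (d : Pk n) (t : ℝ) : iteratedDeriv 2 d.Θ t = deriv (deriv d.Θ) t := by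
  rw [iteratedDeriv_succ, iteratedDeriv_one]

/-- Below `l₀ + 2.6 R`. -/
theorem th_low (h : PkOk q d) {t : ℝ} (ht : t < d.l₀ q + 26 / 10 * q.R) (j : ℕ) :
    iteratedDeriv j d.Θ t = 0 := by
  have e : d.Θ =ᶠ[𝓝 t] fun _ => (0 : ℝ) := by
    filter_upwards [(isOpen_gt' _).mem_nhds ht] with w hw
    exact h.Θ0 w (le_of_lt hw)
  rw [e.iteratedDeriv_eq j]
  rcases j with _ | j
  · simp
  · simp

/-- The third and fourth derivatives. -/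
theorem th_34 (h : PkOk q d) (hR : 1 ≤ q.R) (hL : 1 ≤ q.L₄) (t : ℝ) :
    |iteratedDeriv 3 d.Θ t| ≤ KK q * iteratedDeriv 2 d.Θ t + eT q ∧
    |iteratedDeriv 4 d.Θ t| ≤ KK q ^ 2 * iteratedDeriv 2 d.Θ t + eT q := by
  have h1 := h.Θll hR hL 1 t
  have h2 := h.Θll hR hL 2 t
  have h0 := h.Θcv (by linarith) t
  have hA : 0 ≤ q.tnL := by unfold Cst.tnL Cst.A₄; positivity
  have hT : 0 ≤ q.tny := by unfold Cst.tny; positivity
  have c1 := thC_nonneg 1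
  have c2 := thC_nonneg 2
  have c3 := thC_nonneg 3
  have c4 := thC_nonneg 4
  have hc := cT_ge
  have e1 : thC 1 + thC 3 ≤ cT := by unfold cT; linarith
  have e2 : thC 2 + thC 4 ≤ cT := by unfold cT; linarith
  rw [it2]
  set t2 := deriv (deriv d.Θ) t
  have L0 : 0 < q.L₄ := by linarith
  have L3 : q.L₄ ^ 3 ≤ q.L₄ ^ 4 := pow_le_pow_right₀ hL (by norm_num)
  constructor
  · have a1 : (0 : ℝ) ≤ q.L₄ ^ 1 * t2 + q.L₄ ^ (1 + 2) * q.tnL + q.tny := by positivity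
    have a2 := h1.trans (mul_le_mul_of_nonneg_right e1 a1)
    refine a2.trans ?_
    have a3 : q.L₄ ^ (1 + 2) * q.tnL ≤ q.L₄ ^ 4 * q.tnL :=
      mul_le_mul_of_nonneg_right L3 hA
    have a4 := mul_le_mul_of_nonneg_left a3 (zero_le_one.trans hc)
    unfold KK eT
    nlinarith
  · have a1 : (0 : ℝ) ≤ q.L₄ ^ 2 * t2 + q.L₄ ^ (2 + 2) * q.tnL + q.tny := by positivity
    have a2 := h2.trans (mul_le_mul_of_nonneg_right e2 a1)
    refine a2.trans ?_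
    have a3 : cT * q.L₄ ^ 2 ≤ KK q ^ 2 := by
      unfold KK
      have b1 : cT * q.L₄ ^ 2 ≤ cT ^ 2 * q.L₄ ^ 2 := by
        refine mul_le_mul_of_nonneg_right ?_ (by positivity)
        nlinarith
      have b2 : 0 ≤ cT * q.L₄ := by positivity
      nlinarith
    have a4 := mul_le_mul_of_nonneg_right a3 h0
    have a5 : cT * (q.L₄ ^ 2 * t2 + q.L₄ ^ (2 + 2) * q.tnL + q.tny) =
        cT * q.L₄ ^ 2 * t2 + cT * (q.L₄ ^ 4 * q.tnL + q.tny) := by ring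
    rw [a5]
    unfold eT
    linarith

end th

/-! ## The conditions -/

/-- The conditions on the constants; `C₁` is the constant of `sb_pt`, `CL` that of `lev_der`. -/
structure SCo (n : ℕ) (C₁ : ℝ) (CL : ℝ → ℝ) (q : Cst) : Prop where
  inf : InfC q
  c1 : 1 ≤ C₁
  cl : 1 ≤ CL q.σ
  ε0 : 0 ≤ q.ε
  ε1 : q.ε * n ≤ 1 / 100
  ε2 : (n : ℝ) ^ 3 * q.ε ≤ q.σ / 1200
  ε3 : 3 * (n : ℝ) ^ 2 * (q.ε * (C₁ * CL q.σ)) ≤ q.σ / 100
  L4 : 1 ≤ q.L₄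
  M1 : 1 ≤ q.M₀
  MK : 3 * (KK q + 3) ≤ q.M₀
  Rh : 10 ^ 10 * (n : ℝ) ^ 3 * (C₁ * CL q.σ) * (4 * C₁ * q.R⁻¹ ^ 8) ≤ (q.σ / q.R) ^ 2
  Rm : 10 ^ 8 * (q.M₀ * (C₁ * CL q.σ)) * q.R⁻¹ ^ 3 ≤ (q.σ / q.R) ^ 2
  R3 : n * (q.σ / q.R) ≤ 1 / 2
  R4 : 10 ^ 10 * eT q ≤ (q.σ / q.R) ^ 2

/-- The bound of the negligible function. -/
def dl (C₁ : ℝ) (q : Cst) : ℝ := 4 * C₁ * q.R⁻¹ ^ 8

/-- The hypotheses on one slot at a point. -/
structure Sy (q : Cst) (d : Pk n) (C₁ A : ℝ) (σ₀ : Sl (VV n) (Fin n)) (π : VV n → V n) (s : MF n)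
    (f r : VV n → ℝ) (z : VV n) : Prop where
  p : Pj σ₀ π s
  m : Mt q.ε q.R s
  ok : σ₀.Ok univ 1
  sf : ContDiff ℝ ∞ f
  fr : ∀ z i, σ₀.D i f z = σ₀.D i r z
  g : H475.gg n q.σ (q.R⁻¹ • π z) ≤ 59 / 20
  r1 : ∀ i, |σ₀.D i r z| ≤ dl C₁ q
  r2 : ∀ i j, |σ₀.D i (σ₀.D j r) z| ≤ dl C₁ q
  rL : |σ₀.Λ r z| ≤ dl C₁ q
  rM : |σ₀.Λ (σ₀.Λ r) z| ≤ dl C₁ q
  l1 : ∀ i, |σ₀.D i (fun z => d.l (π z)) z| ≤ A
  l2 : ∀ i j, |σ₀.D i (σ₀.D j fun z => d.l (π z)) z| ≤ 2 * A * q.R⁻¹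
  lM : |σ₀.Λ (σ₀.Λ fun z => d.l (π z)) z| ≤ 4 * A * q.R⁻¹ ^ 3

/-- The weight in the slot. -/
def Wf (q : Cst) (d : Pk n) (π : VV n → V n) (f : VV n → ℝ) (z : VV n) : ℝ :=
  TT q d (d.l (π z)) + f z

/-- The multiplier of the slot. -/
def lf (q : Cst) (d : Pk n) (π : VV n → V n) (z : VV n) : ℝ :=
  1 / 100 * (q.σ / q.R) * T1 q d (d.l (π z))

section slot

variable {q : Cst} {d : Pk n} {C₁ A : ℝ} {CL : ℝ → ℝ} {σ₀ : Sl (VV n) (Fin n)} {π : VV n → V n}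
  {s : MF n} {f r : VV n → ℝ} {z : VV n}

/-- The numbers. -/
structure Nm (n : ℕ) (C₁ A u D e e' : ℝ) : Prop where
  n1 : (1 : ℝ) ≤ n
  A1 : 1 ≤ A
  u0 : 0 < u
  u1 : u ≤ 1 / 2
  D0 : 0 ≤ D
  DA : 10 ^ 10 * ((n : ℝ) ^ 3 * A * D) ≤ u ^ 2
  Dn : 10 ^ 10 * ((n : ℝ) ^ 3 * D) ≤ u ^ 2
  D1 : 10 ^ 10 * D ≤ u ^ 2
  ee : e = 1 / 10 ^ 6 * u ^ 2
  e0 : 0 ≤ e'
  e1 : 10 ^ 10 * e' ≤ u ^ 2

theorem SCo.nm (hn : 1 ≤ n) (co : SCo n C₁ CL q) :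
    Nm n C₁ (C₁ * CL q.σ) (q.σ / q.R) (dl C₁ q) (eS q) (eT q) := by
  have hσ := co.inf.σ0
  have hR := co.inf.R0
  have hn' : (1 : ℝ) ≤ n := by exact_mod_cast hn
  have n3 : (1 : ℝ) ≤ (n : ℝ) ^ 3 := one_le_pow₀ hn'
  have hC1 := co.c1
  have hA1 : 1 ≤ C₁ * CL q.σ := by nlinarith [co.cl]
  have hu : 0 < q.σ / q.R := by positivity
  have hu1 : q.σ / q.R ≤ 1 / 2 := by
    have := co.R3
    nlinarith
  have dl0 : 0 ≤ dl C₁ q := by unfold dl; positivity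
  have hRh : 10 ^ 10 * ((n : ℝ) ^ 3 * (C₁ * CL q.σ) * dl C₁ q) ≤ (q.σ / q.R) ^ 2 := by
    have := co.Rh
    unfold dl
    linarith
  have h1 : (n : ℝ) ^ 3 * dl C₁ q ≤ (n : ℝ) ^ 3 * (C₁ * CL q.σ) * dl C₁ q := by
    have : 0 ≤ (n : ℝ) ^ 3 * dl C₁ q := by positivity
    nlinarith
  have h2 : dl C₁ q ≤ (n : ℝ) ^ 3 * dl C₁ q := le_mul_of_one_le_left dl0 n3
  refine ⟨hn', hA1, hu, hu1, dl0, hRh, by linarith, by linarith, rfl, ?_, co.R4⟩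
  unfold eT Cst.tnL Cst.tny Cst.A₄
  have := cT_ge
  have := co.L4
  positivity

theorem Sy.bS (y : Sy q d C₁ A σ₀ π s f r z) (co : SCo n C₁ CL q) (hn : 1 ≤ n) (i j : Fin n) :
    |σ₀.s i j z| ≤ 2 := by
  have hn' : (1 : ℝ) ≤ n := by exact_mod_cast hn
  rw [y.p.s]
  have h1 := y.m.c0 i j (π z)
  have h2 : |(1 : Matrix (Fin n) (Fin n) ℝ) i j| ≤ 1 := by
    rw [Matrix.one_apply]; split_ifs <;> simp
  have h3 := abs_sub_abs_le_abs_sub (s (π z) i j) ((1 : Matrix (Fin n) (Fin n) ℝ) i j)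
  have h4 : q.ε ≤ 1 := by nlinarith [co.ε1, co.ε0]
  linarith

theorem Sy.bD (y : Sy q d C₁ A σ₀ π s f r z) (co : SCo n C₁ CL q) (hn : 1 ≤ n) (k i j : Fin n) :
    |σ₀.D k (σ₀.s i j) z| ≤ 1 := by
  have hn' : (1 : ℝ) ≤ n := by exact_mod_cast hn
  have hR := co.inf.R0
  rw [y.p.Ds y.m.sm]
  refine (y.m.c1 i j k _).trans ?_
  rw [div_le_one hR]
  nlinarith [co.ε1, co.ε0, co.inf.R1]

/-- The Hessian of the negligible function. -/
theorem Sy.hd (y : Sy q d C₁ A σ₀ π s f r z) (co : SCo n C₁ CL q) (hn : 1 ≤ n) (B : Fin n → ℝ) :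
    |HH σ₀ f z B| ≤ 14 * (n : ℝ) ^ 3 * dl C₁ q * ss σ₀ B z := by
  have D0 := (co.nm hn).D0
  have e1 : q.ε * n ≤ 1 / 2 := by linarith [co.ε1]
  rw [HH_of_D y.fr B z]
  have h1 := HH_le (y.bS co hn) (y.bD co hn) (fun i => y.p.η i z) y.r1 y.r2 (by norm_num)
    zero_le_one D0 D0 B
  rw [Fintype.card_fin] at h1
  refine h1.trans ?_
  have h2 := y.m.lo y.p co.ε0 e1 z B
  have h3 : (n : ℝ) ^ 3 * (2 ^ 2 * dl C₁ q + 3 / 2 * (2 * 1 * dl C₁ q)) =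
      7 * (n : ℝ) ^ 3 * dl C₁ q := by ring
  rw [h3]
  have h4 : 0 ≤ 7 * (n : ℝ) ^ 3 * dl C₁ q := by positivity
  have h5 := mul_le_mul_of_nonneg_left h2 h4
  linarith

theorem Sy.hd3 (y : Sy q d C₁ (C₁ * CL q.σ) σ₀ π s f r z) (co : SCo n C₁ CL q) (hn : 1 ≤ n) :
    |σ₀.Γ (fun z => d.l (π z)) f z| ≤ q.M₀ / 4 := by
  have N := co.nm hn
  have D0 := N.D0
  have A1 := N.A1
  have n1 := N.n1
  rw [G_of _ y.fr]
  unfold Sl.Γ
  refine (Finset.abs_sum_le_sum_abs _ _).trans ((Finset.sum_le_sum fun i _ =>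
    Finset.abs_sum_le_sum_abs _ _).trans ?_)
  refine (Finset.sum_le_sum (g := fun _ => ∑ _j : Fin n, 2 * (C₁ * CL q.σ) * dl C₁ q) fun i _ =>
    Finset.sum_le_sum fun j _ => ?_).trans ?_
  · rw [abs_mul, abs_mul]
    exact mul_le_mul (mul_le_mul (y.bS co hn i j) (y.l1 i) (abs_nonneg _) (by norm_num)) (y.r1 j)
      (abs_nonneg _) (by positivity)
  · simp only [Finset.sum_const, Finset.card_univ, Fintype.card_fin, nsmul_eq_mul]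
    have h1 := co.M1
    have h2 : (n : ℝ) * (n * (2 * (C₁ * CL q.σ) * dl C₁ q)) =
        2 * ((n : ℝ) ^ 2 * ((C₁ * CL q.σ) * dl C₁ q)) := by ring
    rw [h2]
    have h3 : (n : ℝ) ^ 2 * ((C₁ * CL q.σ) * dl C₁ q) ≤ (n : ℝ) ^ 3 * ((C₁ * CL q.σ) * dl C₁ q) :=
      mul_le_mul_of_nonneg_right (pow_le_pow_right₀ n1 (by norm_num)) (by positivity)
    have h4 := N.DA
    have h5 : (q.σ / q.R) ^ 2 ≤ 1 := by
      have := N.u0
      have := N.u1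
      nlinarith
    have h6 : (n : ℝ) ^ 3 * ((C₁ * CL q.σ) * dl C₁ q) = (n : ℝ) ^ 3 * (C₁ * CL q.σ) * dl C₁ q := by
      ring
    rw [h6] at h3
    linarith

/-- The two cases: low levels, and levels where everything is flat. -/
theorem Sy.hc (y : Sy q d C₁ (C₁ * CL q.σ) σ₀ π s f r z) (co : SCo n C₁ CL q) (hn : 1 ≤ n)
    (hk : PkOk q d) :
    (9 / 10 ≤ σ₀.Γ (fun z => d.l (π z)) (fun z => d.l (π z)) z ∧
        |σ₀.Λ (fun z => d.l (π z)) z| ≤ 1 ∧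
        |σ₀.Λ (σ₀.Γ (fun z => d.l (π z)) fun z => d.l (π z)) z| ≤ 1 ∧
        σ₀.Γ (fun z => d.l (π z)) (σ₀.Λ fun z => d.l (π z)) z = 0 ∧
        |σ₀.Γ (fun z => d.l (π z)) (σ₀.Γ (fun z => d.l (π z)) fun z => d.l (π z)) z| ≤
          σ₀.Γ (fun z => d.l (π z)) (fun z => d.l (π z)) z ∧
        σ₀.Λ (σ₀.Λ fun z => d.l (π z)) z = 0 ∧
        |iteratedDeriv 3 d.Θ (d.l (π z))| ≤
          KK q * iteratedDeriv 2 d.Θ (d.l (π z)) + eT q ∧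
        |iteratedDeriv 4 d.Θ (d.l (π z))| ≤
          KK q ^ 2 * iteratedDeriv 2 d.Θ (d.l (π z)) + eT q ∧
        7 * eT q * σ₀.Γ (fun z => d.l (π z)) (fun z => d.l (π z)) z ^ 2 ≤ eS q / 8) ∨
      (iteratedDeriv 2 d.Θ (d.l (π z)) = 0 ∧ iteratedDeriv 3 d.Θ (d.l (π z)) = 0 ∧
        iteratedDeriv 4 d.Θ (d.l (π z)) = 0 ∧
        T1 q d (d.l (π z)) * |σ₀.Λ (σ₀.Λ fun z => d.l (π z)) z| ≤ eS q / 8) := by
  have N := co.nm hn
  have hσ := co.inf.σ0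
  have hσ1 := co.inf.σ1
  have hR1 := co.inf.R1
  have hR := co.inf.R0
  have hl0 := H404.INF.l₀_nonneg co.inf hk
  have hlit : d.l = levG n q.σ q.R d.kap d.Gs := hk.lev.lit
  rw [N.ee]
  rcases lt_or_ge (d.l (π z)) (d.l₀ q + 26 / 10 * q.R) with hlow | hhigh
  · right
    refine ⟨th_low hk hlow 2, th_low hk hlow 3, th_low hk hlow 4, ?_⟩
    have h1 : T1 q d (d.l (π z)) = q.M₀ := by
      rw [T1_eq]
      simp only [th_low hk hlow 1, add_zero]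
    have h2 := co.Rm
    have h3 := mul_le_mul_of_nonneg_left y.lM (zero_le_one.trans co.M1)
    have h4 := sq_nonneg (q.σ / q.R)
    have h5 : q.M₀ * (4 * (C₁ * CL q.σ) * q.R⁻¹ ^ 3) =
        4 * (q.M₀ * (C₁ * CL q.σ) * q.R⁻¹ ^ 3) := by ring
    rw [h5] at h3
    rw [h1]
    generalize (q.σ / q.R) ^ 2 = v at *
    generalize q.R⁻¹ ^ 3 = w at *
    linarith
  · left
    have hz : z ∈ Fl π q.σ q.R d.kap d.Gs := by
      show lam0 q.R d.kap d.Gs + 21 / 20 * q.R < levG n q.σ q.R d.kap d.Gs (π z)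
      rw [← hlit, ← l₀_eq]
      linarith
    rw [hlit]
    have a1 := Fl_LL (kap := d.kap) (Gs := d.Gs) y.p y.m hn hσ hσ1 hR hz
    have a2 := Fl_GL (kap := d.kap) (Gs := d.Gs) y.p y.m hn hσ hσ1 hR hz
    have a3 := Fl_GLL (kap := d.kap) (Gs := d.Gs) y.p y.m hn hσ hσ1 hR hz
      (fun z => levG n q.σ q.R d.kap d.Gs (π z))
    have a4 := Fl_LLL (kap := d.kap) (Gs := d.Gs) y.p y.m hn hσ hσ1 hR hz
    have a5 := Fl_GG (kap := d.kap) (Gs := d.Gs) y.p y.m hn hσ hσ1 hR hz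
    have a6 := Fl_LG (kap := d.kap) (Gs := d.Gs) y.p y.m hn hσ hσ1 hR hz
    have a7 := Fl_q (kap := d.kap) (Gs := d.Gs) y.p y.m hn hσ hσ1 hR hz
    have a8 : HY.sq (wR n q.σ q.R (π z)) ≤ 2 := by
      have h1 := (H404.INF.glv_gg (n := n) hσ hσ1).w_le hσ (a := 59 / 20) (by norm_num) y.g
      have h2 : HY.sq (wR n q.σ q.R (π z)) = HY.sq (wv n q.σ (q.R⁻¹ • π z)) := rfl
      rw [h2]
      linarith
    rw [a1, a2, a3, a4, a5, a6]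
    obtain ⟨h3, h4⟩ := th_34 hk hR1 co.L4 (d.l (π z))
    rw [hlit] at h3 h4
    have R3 := co.R3
    have eT0 := N.e0
    have u0 := N.u0
    have u1 := N.u1
    have R4 := N.e1
    clear a1 a2 a3 a4 a5 a6
    generalize HY.sq (wR n q.σ q.R (π z)) = w at *
    generalize q.σ / q.R = u at *
    refine ⟨by linarith, ?_, ?_, rfl, ?_, rfl, h3, h4, ?_⟩
    · rw [abs_of_nonneg (by positivity)]
      linarith
    · rw [abs_of_nonneg (by positivity)]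
      have h5 : n * u * (2 * u) ≤ 1 / 2 * 1 := mul_le_mul R3 (by linarith) (by positivity)
        (by norm_num)
      have h6 : 2 * (n : ℝ) * u ^ 2 = n * u * (2 * u) := by ring
      rw [h6]
      linarith
    · rw [abs_of_nonneg (by positivity)]
      have h5 : 2 * u * w ≤ 1 * w := mul_le_mul_of_nonneg_right (by linarith) (by linarith)
      linarith
    · have h5 : w ^ 2 ≤ 4 := by nlinarith
      have h7 : 7 * eT q * w ^ 2 ≤ 7 * eT q * 4 := mul_le_mul_of_nonneg_left h5 (by positivity)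
      linarith

/-- The zero point energy. -/
theorem Sy.hl0 (y : Sy q d C₁ (C₁ * CL q.σ) σ₀ π s f r z) (co : SCo n C₁ CL q) (hn : 1 ≤ n)
    (hk : PkOk q d) : 2 / 100 * (q.σ / q.R) ≤ σ₀.Λ (fun z => d.l (π z)) z := by
  have N := co.nm hn
  have hσ := co.inf.σ0
  have hσ1 := co.inf.σ1
  have hR := co.inf.R0
  have hlit : d.l = levG n q.σ q.R d.kap d.Gs := hk.lev.lit
  have b1 : ∀ i, |pd i d.l (π z)| ≤ C₁ * CL q.σ := fun i => by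
    have := y.l1 i
    rwa [y.p.D i d.l z (hk.lev.sm.differentiable (by simp) _)] at this
  have b2 : ∀ i j, |pd j (pd i d.l) (π z)| ≤ 2 * (C₁ * CL q.σ) * q.R⁻¹ := fun i j => by
    have := y.l2 j i
    rwa [y.p.DDL hk.lev.sm i j] at this
  have h1 := lam_lo (h := 3 / 100 * (q.σ / q.R)) y.p y.m hk.lev.sm z co.ε0 hR (fun U => by
    rw [hlit]; exact (hess_levG hσ hσ1 hR (π z) U).1) b1 b2
  have h2 := co.ε3
  have h3 : (n : ℝ) ^ 2 * (q.ε * (2 * (C₁ * CL q.σ) * q.R⁻¹) + q.ε / q.R * (C₁ * CL q.σ)) =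
      3 * (n : ℝ) ^ 2 * (q.ε * (C₁ * CL q.σ)) / q.R := by field_simp; ring
  have h4 : 3 * (n : ℝ) ^ 2 * (q.ε * (C₁ * CL q.σ)) / q.R ≤ q.σ / 100 / q.R :=
    div_le_div_of_nonneg_right h2 hR.le
  have h5 : q.σ / 100 / q.R = 1 / 100 * (q.σ / q.R) := by ring
  have u0 := N.u0
  have h6 : 1 * (3 / 100 * (q.σ / q.R)) ≤ n * (3 / 100 * (q.σ / q.R)) :=
    mul_le_mul_of_nonneg_right N.n1 (by positivity)
  linarith

/-- **One slot of the leaf iS.** -/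
theorem slot_S (hn : 1 ≤ n) (co : SCo n C₁ CL q) (hk : PkOk q d)
    (y : Sy q d C₁ (C₁ * CL q.σ) σ₀ π s f r z) :
    (∀ B : Fin n → ℝ, lf q d π z * ss σ₀ B z ≤ HH σ₀ (Wf q d π f) z B) ∧
    2 * |σ₀.Λ (σ₀.Λ (Wf q d π f)) z| ≤
      eS q + 2 * HH σ₀ (Wf q d π f) z (fun i => σ₀.D i (Wf q d π f) z) ∧
    1 / 10 ^ 4 * ((q.σ / q.R) * T1 q d (d.l (π z))) ^ 2 ≤
      2 / 3 * (lf q d π z * σ₀.Λ (Wf q d π f) z + σ₀.Γ (lf q d π) (Wf q d π f) z) - 3 * eS q := by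
  have N := co.nm hn
  have hσ := co.inf.σ0
  have hσ1 := co.inf.σ1
  have hR := co.inf.R0
  have e1 : q.ε * n ≤ 1 / 2 := by linarith [co.ε1]
  have sL : ContDiff ℝ ∞ fun z : VV n => d.l (π z) := hk.lev.sm.comp y.p.cπ
  have hlit : d.l = levG n q.σ q.R d.kap d.Gs := hk.lev.lit
  have s0 : ∀ B : Fin n → ℝ, 0 ≤ ss σ₀ B z := fun B => y.m.s0 y.p co.ε0 e1 z B
  have eL : σ₀.Λ f = σ₀.Λ r := L_of y.fr
  have hL : ∀ B : Fin n → ℝ, 1 / 50 * (q.σ / q.R) * ss σ₀ B z ≤ HH σ₀ (fun z => d.l (π z)) z B := by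
    intro B
    rw [hlit]
    exact lev_HH y.p y.m hn hσ hσ1 hR co.ε0 co.ε1 co.ε2 z B
  have t2 : 0 ≤ iteratedDeriv 2 d.Θ (d.l (π z)) := by
    rw [it2]; exact hk.Θcv hR _
  have t1 : q.M₀ ≤ T1 q d (d.l (π z)) := by
    unfold T1
    linarith [hk.Θd0 hR (d.l (π z))]
  have t1' : 1 ≤ T1 q d (d.l (π z)) := co.M1.trans t1
  have u0 := N.u0
  have u1 := N.u1
  have Dn := N.Dn
  have D1 := N.D1
  have n1 := N.n1
  have hδ : 2 * (14 * (n : ℝ) ^ 3 * dl C₁ q) ≤ 1 / 50 * (q.σ / q.R) * T1 q d (d.l (π z)) := by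
    have h1 : 28 * ((n : ℝ) ^ 3 * dl C₁ q) ≤ 1 / 50 * (q.σ / q.R) * 1 := by nlinarith
    have h2 : 1 / 50 * (q.σ / q.R) * 1 ≤ 1 / 50 * (q.σ / q.R) * T1 q d (d.l (π z)) :=
      mul_le_mul_of_nonneg_left t1' (by positivity)
    linarith
  have he0 : 0 ≤ eS q := by rw [N.ee]; positivity
  have hd2 : |σ₀.Λ (σ₀.Λ f) z| ≤ eS q / 8 := by
    rw [eL, N.ee]
    refine y.rM.trans ?_
    have h4 := sq_nonneg (q.σ / q.R)
    linarith
  obtain ⟨r1, r2, r3⟩ := slot_all (σ := σ₀) (L := fun z => d.l (π z)) (f := f)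
    (hh := 1 / 50 * (q.σ / q.R)) (δ := 14 * (n : ℝ) ^ 3 * dl C₁ q) (K := KK q) (e := eS q)
    (e' := eT q) (M := q.M₀) y.ok (cp0 hk sL) (cp1 hk sL) (cp2 hk sL) y.sf.contDiffOn
    (by unfold KK; nlinarith [cT_ge, co.L4]) he0 N.e0
    (by positivity) s0 hL (y.hd co hn) hδ hd2 (y.hd3 co hn) t1 co.MK t2 (y.hc co hn hk)
  refine ⟨fun B => ?_, r2, ?_⟩
  · have h1 := r1 B
    have h2 : lf q d π z = 1 / 50 * (q.σ / q.R) / 2 * T1 q d (d.l (π z)) := by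
      unfold lf
      ring
    rw [h2]
    exact h1
  · have h1 := r3 (1 / 100 * (q.σ / q.R)) (dl C₁ q) (2 / 100 * (q.σ / q.R)) (by positivity)
      (by rw [eL]; exact y.rL) (y.hl0 co hn hk) (s0 fun i => σ₀.D i (fun z => d.l (π z)) z)
    have h2 : lf q d π = fun z => 1 / 100 * (q.σ / q.R) * T1 q d (d.l (π z)) := rfl
    have h3 : (fun z => TT q d (d.l (π z)) + f z) = Wf q d π f := rfl
    rw [h3] at h1
    rw [h2, N.ee]
    refine le_trans ?_ (sub_le_sub_right (mul_le_mul_of_nonneg_left h1 (by norm_num)) _)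
    clear r1 r2 r3 h1 h2 h3 hL hδ hd2 eL s0 t1 t2
    generalize T1 q d (d.l (π z)) = t at *
    generalize dl C₁ q = D at *
    generalize q.σ / q.R = u at *
    have h4 : D ≤ 1 / 1000 * u * t := by
      have h5 : D ≤ 1 / 1000 * u * 1 := by nlinarith
      have h6 : 1 / 1000 * u * 1 ≤ 1 / 1000 * u * t := mul_le_mul_of_nonneg_left t1' (by positivity)
      linarith
    have h5 : 1 / 100 * u * t * (19 / 1000 * u * t) ≤ 1 / 100 * u * t * (t * (2 / 100 * u) - D) := by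
      refine mul_le_mul_of_nonneg_left ?_ (by positivity)
      linarith
    have h6 : u ^ 2 * 1 ≤ u ^ 2 * t ^ 2 := mul_le_mul_of_nonneg_left (by nlinarith) (sq_nonneg u)
    have h7 : 1 / 100 * u * t * (19 / 1000 * u * t) = 19 / 10 ^ 5 * (u ^ 2 * t ^ 2) := by ring
    have h8 : 1 / 10 ^ 4 * (u * t) ^ 2 = 1 / 10 ^ 4 * (u ^ 2 * t ^ 2) := by ring
    have h9 : 0 ≤ u ^ 2 * t ^ 2 := by positivity
    rw [h8]
    linarith

end slot

end Vale.Agent.P088.R2.H380.INF
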