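import Vale.Agent.P088.R2.H380.INF.PnS

/-!
# P088, stage 3, zone INF, leaf iS: the hypotheses `Pn` and the zone inequality
-/

open MeasureTheory Set Filter
open scoped ContDiff Topology Matrix

noncomputable section

namespace Vale.Agent.P088.R2.H380.INF

open Vale.Agent.P088.R2.H961.GW Vale.Agent.P088.R2.H960.W Vale.Agent.P088.R2.H644
open Vale.Agent.P088.R2.H551.E Vale.Agent.P088.LR Vale.Agent.P088.HY Vale.Agent.P088.R2.H475
open Vale.Agent.P088.R2.H168.INF Vale.Agent.P088.R2.H269.INF Vale.Agent.P088.R2.H31.EP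
open Vale.Agent.P088.R2.H404.INF (InfC evInf lvG l₀_eq gl_le DeepOk closed_deep deep_supp W_ret)

variable {n : ℕ} {q : Cst} {d : Pk n} {C₁ : ℝ} {CL : ℝ → ℝ}

/-! ## Numbers -/

theorem num_mm {N u D lam mu X Y M sx sy : ℝ} (N1 : 1 ≤ N) (u0 : 0 < u) (u1 : u ≤ 1 / 2)
    (D0 : 0 ≤ D) (Dn : 10 ^ 10 * (N ^ 3 * D) ≤ u ^ 2) (hl : 1 / 100 * u ≤ lam)
    (hm : 1 / 100 * u ≤ mu) (hX : X ≤ 2 * sx) (hY : Y ≤ 2 * sy) (s1 : 0 ≤ sx) (s2 : 0 ≤ sy)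
    (h : M ≤ N * N * (2 ^ 2 * D) * ((N * X + N * Y) / 2)) :
    16 * M ≤ 1 / 2 * (lam * sx + mu * sy) := by
  have h1 : N * N * (2 ^ 2 * D) * ((N * X + N * Y) / 2) = 2 * (N ^ 3 * D) * (X + Y) := by ring
  rw [h1] at h
  have hD : 0 ≤ N ^ 3 * D := by positivity
  generalize N ^ 3 * D = w at *
  have h2 : 2 * w * (X + Y) ≤ 2 * w * (2 * sx + 2 * sy) :=
    mul_le_mul_of_nonneg_left (by linarith) (by positivity)
  have h3 : 128 * w ≤ 1 / 100 * u := by nlinarith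
  have h4 : 128 * w * sx ≤ lam * sx := mul_le_mul_of_nonneg_right (by linarith) s1
  have h5 : 128 * w * sy ≤ mu * sy := mul_le_mul_of_nonneg_right (by linarith) s2
  linarith

theorem num_g {N u D e lam X G s y : ℝ} (N1 : 1 ≤ N) (u0 : 0 < u) (u1 : u ≤ 1 / 2)
    (D0 : 0 ≤ D) (Dn : 10 ^ 10 * (N ^ 3 * D) ≤ u ^ 2) (ee : e = 1 / 10 ^ 6 * u ^ 2)
    (hl : 1 / 100 * u ≤ lam) (hX : X ≤ 2 * s) (s0 : 0 ≤ s)
    (h : G ^ 2 ≤ N ^ 3 * (2 * D) ^ 2 * X) :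
    8 * |y * G| ≤ 1 / 2 * (lam * s) + e / 2 * y ^ 2 := by
  have e0 : 0 < e := by rw [ee]; positivity
  have N3 : 1 ≤ N ^ 3 := one_le_pow₀ N1
  have hD : 0 ≤ N ^ 3 * D := by positivity
  have hD' : D ≤ N ^ 3 * D := le_mul_of_one_le_left D0 N3
  -- `G² ≤ 8 (N³ D)² s`
  have h1 : G ^ 2 ≤ 8 * (N ^ 3 * D) ^ 2 * s := by
    have a1 : N ^ 3 * (2 * D) ^ 2 * X ≤ N ^ 3 * (2 * D) ^ 2 * (2 * s) :=
      mul_le_mul_of_nonneg_left hX (by positivity)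
    have a2 : N ^ 3 * (2 * D) ^ 2 * (2 * s) = 8 * (N ^ 3 * D * D * s) := by ring
    have a3 : N ^ 3 * D * D * s ≤ N ^ 3 * D * (N ^ 3 * D) * s :=
      mul_le_mul_of_nonneg_right (mul_le_mul_of_nonneg_left hD' hD) s0
    linarith
  generalize N ^ 3 * D = w at *
  have hw : w ≤ 1 / 10 ^ 10 * u ^ 2 := by linarith
  have hww : w ^ 2 ≤ 1 / 10 ^ 20 * u ^ 4 := by
    have := mul_le_mul hw hw hD (by positivity)
    nlinarith
  have hu3 : u ^ 4 ≤ 1 / 2 * u ^ 3 := by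
    have : 0 ≤ u ^ 3 := by positivity
    nlinarith
  -- `512 w² ≤ lam e`
  have h2 : 512 * w ^ 2 ≤ lam * e := by
    have a1 : 1 / 100 * u * e ≤ lam * e := mul_le_mul_of_nonneg_right hl e0.le
    rw [ee] at a1 ⊢
    have a2 : 1 / 100 * u * (1 / 10 ^ 6 * u ^ 2) = 1 / 10 ^ 8 * u ^ 3 := by ring
    have : 0 ≤ u ^ 3 := by positivity
    linarith
  have h3 : |y * G| ^ 2 ≤ y ^ 2 * (8 * w ^ 2 * s) := by
    rw [sq_abs, mul_pow]
    exact mul_le_mul_of_nonneg_left h1 (sq_nonneg _)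
  have h4 : (8 * |y * G|) ^ 2 ≤ (1 / 2 * (lam * s) + e / 2 * y ^ 2) ^ 2 := by
    have a1 : (8 * |y * G|) ^ 2 = 64 * |y * G| ^ 2 := by ring
    rw [a1]
    have a2 : 512 * w ^ 2 * (y ^ 2 * s) ≤ lam * e * (y ^ 2 * s) :=
      mul_le_mul_of_nonneg_right h2 (by positivity)
    nlinarith [sq_nonneg (1 / 2 * (lam * s) - e / 2 * y ^ 2)]
  have l0 : 0 ≤ lam := by nlinarith
  exact (abs_le_of_sq_le_sq' h4 (by positivity)).2

theorem num_m2 {u D e M L : ℝ} (D0 : 0 ≤ D) (D1 : 10 ^ 10 * D ≤ u ^ 2) (ee : e = 1 / 10 ^ 6 * u ^ 2)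
    (hM : |M| ≤ 4 * D) (hL : |L| ≤ D) : (16 * |M| + 4 * |L|) ^ 2 ≤ e * e := by
  rw [← pow_two]
  refine pow_le_pow_left₀ (by positivity) ?_ 2
  rw [ee]
  linarith

/-- The mixed quantities of the weight. -/
structure Cro (q : Cst) (d : Pk n) (D : ℝ) (z : VV n) : Prop where
  dm : ∀ i k, |d.sx.D i (d.sy.D k (d.W q)) z| ≤ D
  l2 : ∀ i, |d.sx.D i (d.sy.Λ (d.W q)) z| ≤ D
  l3 : ∀ k, |d.sy.D k (d.sx.Λ (d.W q)) z| ≤ D
  m2 : |d.sx.Λ (d.sy.Λ (d.W q)) z| ≤ D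
  gm : |M2 d.sx d.sy (d.W q) (d.W q) z| ≤ 4 * D

theorem cro (hn : 1 ≤ n) (c : Cns n C₁ CL) (co : SCo n C₁ CL q) (h : PkOk q d) (hr : RhoP q d)
    {z : VV n} (hz : DeepOk q.σ q.R (H475.gg n q.σ) d.l z) : Cro q d (dl C₁ q) z := by
  have hq := co.inf
  have hR := hq.R0
  have hR1 := hq.R1
  have hn' : (1 : ℝ) ≤ n := by exact_mod_cast hn
  have he1 : q.ε ≤ 1 := by nlinarith [co.ε1, co.ε0]
  have hε : n * q.ε ≤ 1 / 2 := by linarith [co.ε1, mul_comm (n : ℝ) q.ε]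
  have m1 := mt₁ le_rfl hR h.rg
  have m2 := mt₂ le_rfl hR h.rg
  have sr := rhS_sm h hε
  have C0 : 0 ≤ C₁ := by linarith [co.c1]
  have g : ∀ j ≤ 3, gm q.R (rhS q d) j z ≤ 4 * q.R⁻¹ ^ 8 := fun j hj => by
    have h1 := gm_le hR1 (f := rhS q d) (z := z) (k := 3) (δ := q.R⁻¹ ^ 8) (by positivity)
      (fun i h1 h2 => rhS_bd hq h hr hz h1 h2) hj
    refine h1.trans (mul_le_mul_of_nonneg_right ?_ (by positivity))
    have : (j : ℝ) ≤ 3 := by exact_mod_cast hj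
    linarith
  have g' : ∀ j ≤ 3, C₁ * gm q.R (rhS q d) j z ≤ dl C₁ q := fun j hj => by
    have := mul_le_mul_of_nonneg_left (g j hj) C0
    unfold dl
    linarith
  have b := (c.sb q.R d.s₁ d.s₂ (rhS q d) (bs_of h hR1 he1 sr) z).1
  have bx := (c.sb q.R d.s₁ d.s₂ (fun z => rhS q d z + TT q d (d.l z.1)) (bs_of h hR1 he1
    (sr.add (T_x h))) z).1
  have bY := (c.sb q.R d.s₁ d.s₂ (fun z => rhS q d z + TT q d (d.l z.2)) (bs_of h hR1 he1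
    (sr.add (T_y h))) z).1
  have S := sb5_pw (ok_x m1 m2) (ok_y m1 m2)
    (cm1 h.rg.sm₁ h.rg.sm₂ (fun x i j => ((h.rg.sy₁ x).apply i j).symm)
      (fun x i j => ((h.rg.sy₂ x).apply i j).symm)) sr.contDiffOn (T_x h).contDiffOn
    (T_y h).contDiffOn
    (fun w _ k => Dy_fst (g := fun x => TT q d (d.l x))
        (((sm_T h).comp h.lev.sm).differentiable (by simp) w.1) k)
    (fun w _ k => Dx_snd (g := fun x => TT q d (d.l x))
        (((sm_T h).comp h.lev.sm).differentiable (by simp) w.2) k) (mem_univ z) b bx bY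
  rw [W_s] at S
  refine ⟨fun i k => (S.dm i k).trans (g' 1 (by norm_num)),
    fun i => (S.l2 i).trans (g' 2 (by norm_num)), fun k => (S.l3 k).trans (g' 2 (by norm_num)),
    S.m2.trans (g' 3 (by norm_num)), S.gm.trans ?_⟩
  have g1 := g 1 (by norm_num)
  have g0 := gm_nn hR (rhS q d) 1 z
  have g1' := g' 1 (by norm_num)
  have r1 : q.R⁻¹ ^ 8 ≤ 1 := pow_le_one₀ (by positivity) (inv_le_one_of_one_le₀ hR1)
  have e1 : C₁ * gm q.R (rhS q d) 1 z ^ 2 = C₁ * gm q.R (rhS q d) 1 z * gm q.R (rhS q d) 1 z := by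
    ring
  show C₁ * gm q.R (rhS q d) 1 z ^ 2 ≤ 4 * dl C₁ q
  rw [e1]
  have D0 : 0 ≤ dl C₁ q := by unfold dl; positivity
  calc C₁ * gm q.R (rhS q d) 1 z * gm q.R (rhS q d) 1 z ≤ dl C₁ q * 4 :=
        mul_le_mul g1' (by linarith) g0 D0
    _ = 4 * dl C₁ q := by ring

/-- **The hypotheses of `zone_S`.** -/
theorem pnS (hn : 1 ≤ n) (c : Cns n C₁ CL) (co : SCo n C₁ CL q) (h : PkOk q d) (hr : RhoP q d)
    {z : VV n} (hz : DeepOk q.σ q.R (H475.gg n q.σ) d.l z) :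
    Pn d.sx d.sy (0 : VV n → ℝ) 0 (d.W q) (lmS q d z) (muS q d z) (eS q) (eS q) z := by
  have N := co.nm hn
  have hq := co.inf
  have hR := hq.R0
  have m1 := mt₁ le_rfl hR h.rg
  have m2 := mt₂ le_rfl hR h.rg
  have yx := syx hn c co h hr hz
  have yy := syy hn c co h hr hz
  have C := cro hn c co h hr hz
  obtain ⟨a1, a2, -⟩ := slot_S hn co h yx
  obtain ⟨b1, b2, -⟩ := slot_S hn co h yy
  rw [W_x] at a1 a2
  rw [W_y] at b1 b2
  have u0 := N.u0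
  have e1 : q.ε * n ≤ 1 / 2 := by linarith [co.ε1]
  have t1 : ∀ t, 1 ≤ T1 q d t := fun t => by
    have := h.Θd0 hR t
    have := co.M1
    unfold T1
    linarith
  have l1 : 1 / 100 * (q.σ / q.R) ≤ lmS q d z := by
    have := mul_le_mul_of_nonneg_left (t1 (d.l z.1)) (by positivity : 0 ≤ 1 / 100 * (q.σ / q.R))
    unfold lmS nX
    unfold T1 at this
    linarith
  have l2 : 1 / 100 * (q.σ / q.R) ≤ muS q d z := by
    have := mul_le_mul_of_nonneg_left (t1 (d.l z.2)) (by positivity : 0 ≤ 1 / 100 * (q.σ / q.R))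
    unfold muS nY
    unfold T1 at this
    linarith
  have lu : 0 ≤ 1 / 100 * (q.σ / q.R) := by positivity
  have he : 0 ≤ eS q := by rw [N.ee]; positivity
  have s1 : ∀ A : Fin n → ℝ, 0 ≤ ss d.sx A z := fun A => m1.s0 (pj_x _) co.ε0 e1 z A
  have s2 : ∀ A : Fin n → ℝ, 0 ≤ ss d.sy A z := fun A => m2.s0 (pj_y _) co.ε0 e1 z A
  have o1 : ∀ A : Fin n → ℝ, ∑ i, A i ^ 2 ≤ 2 * ss d.sx A z :=
    fun A => m1.lo (pj_x _) co.ε0 e1 z A
  have o2 : ∀ A : Fin n → ℝ, ∑ i, A i ^ 2 ≤ 2 * ss d.sy A z :=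
    fun A => m2.lo (pj_y _) co.ε0 e1 z A
  have bS := yx.bS co hn
  have bS' := yy.bS co hn
  have G0 : d.sx.Γ (d.W q) (0 : VV n → ℝ) z = 0 := by
    unfold Sl.Γ
    refine Finset.sum_eq_zero fun i _ => Finset.sum_eq_zero fun j _ => ?_
    have : d.sx.D j (0 : VV n → ℝ) z = 0 := D_const _ 0 j z
    rw [this, mul_zero]
  have G0' : d.sy.Γ (d.W q) (0 : VV n → ℝ) z = 0 := by
    unfold Sl.Γ
    refine Finset.sum_eq_zero fun i _ => Finset.sum_eq_zero fun j _ => ?_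
    have : d.sy.D j (0 : VV n → ℝ) z = 0 := D_const _ 0 j z
    rw [this, mul_zero]
  refine ⟨lu.trans l1, lu.trans l2, he, he, s1, s2, a1, b1, fun A B => ?_, fun A y => ?_,
    fun B x => ?_, num_m2 N.D0 N.D1 N.ee C.gm C.m2, a2, b2, ?_, ?_⟩
  · have k := MM_le bS bS' C.dm (by norm_num) N.D0 A B
    rw [Fintype.card_fin] at k
    exact num_mm N.n1 N.u0 N.u1 N.D0 N.Dn l1 l2 (o1 A) (o2 B) (s1 A) (s2 B) k
  · have k := gA_le bS C.l2 (by norm_num) N.D0 A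
    rw [Fintype.card_fin] at k
    exact num_g N.n1 N.u0 N.u1 N.D0 N.Dn N.ee l1 (o1 A) (s1 A) k
  · have k := gA_le bS' C.l3 (by norm_num) N.D0 B
    rw [Fintype.card_fin] at k
    exact num_g N.n1 N.u0 N.u1 N.D0 N.Dn N.ee l2 (o2 B) (s2 B) k
  · rw [G0, abs_zero, mul_zero]; exact he
  · rw [G0', abs_zero, mul_zero]; exact he

end Vale.Agent.P088.R2.H380.INF
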